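import Vale.Agent.P267.H399.Defs
import Vale.Agent.P267.H857.Alg
import Vale.Agent.P267.H158.Inst
import Vale.Agent.P267.H158.Conn
import Vale.Agent.P267.H221.Out
import Vale.Agent.P267.Statement

/-!
# P267, block C (lattice, unimodularity, lift): the statements that block C delivers

Language: `H399/Defs.lean` (`FL`), algebra of forms of `H857/Alg.lean`, covers of `H158`,
intersection numbers `RR.isec` and `RR.IsCanon` of `H221/Out.lean`. Only definitions (`Prop`s).

* `SurfIn Y N` : what block C uses about a closed surface `Y` (Riemann-Roch/Noether, Hodge block).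
* `Unimod Y N` : integral Poincaré duality for the Chern classes of smooth line bundles.
* `Elk Y N` : the diagonal basis (Elkies).
* `Lift h m` : line bundles of square `-1` on the `m`-fold cyclic cover come from the infinite one.
* `Out h N` : the final output, consumed by blocks A and D.
-/

open scoped Manifold ContDiff ComplexConjugate
open Set
open Vale.Agent.P267.FL Vale.Agent.P267.H158 Vale.Agent.P267.RR

noncomputable section

namespace Vale.Agent.P267.BlockC

/-! ### line bundles with their index type, pairing of forms -/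

section chern

variable {M : Type*} [TopologicalSpace M] [ChartedSpace C2 M]

/-- `∫ F ∧ G` -/
def pair (F G : TwoF M) : ℂ := intX (F.wedge G)

/-- the two-form is exact -/
def ExactTwo (F : TwoF M) : Prop := ∃ A : OneF M, A.Smooth ∧ A.d = F

end chern

/-- a line bundle together with its index type -/
structure ALB (M : Type*) [TopologicalSpace M] [ChartedSpace C2 M] where
  ι : Type
  [ft : Fintype ι]
  [de : DecidableEq ι]
  L : LB M ι

attribute [instance] ALB.ft ALB.de

section closed

variable (Y : Type) [TopologicalSpace Y] [ChartedSpace C2 Y]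

/-- What block C uses about a closed surface `Y` (of class VII, with `b₂ = N`). -/
structure SurfIn (N : ℕ) : Prop where
  /-- the second Betti number is `N` -/
  b2 : BettiSucc Y 1 N
  /-- the intersection form is negative definite -/
  neg : ∀ F : TwoF Y, F.Smooth → F.Real → F.Closed →
    (pair F F).re ≤ 0 ∧ ((pair F F).re = 0 → ExactTwo F)
  /-- Riemann-Roch and vanishing: `χ(L) = (L.L - K.L)/2` is an integer `≤ 0` -/
  rr : ∀ L K : ALB Y, IsCanon K.L → ∃ k : ℕ, isec L.L L.L - isec K.L L.L = -2 * k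
  /-- Noether -/
  kk : ∀ K : ALB Y, IsCanon K.L → isec K.L K.L = -N

/-- **Unimodularity.** There are `N` line bundles whose Chern classes are a `ℂ`-basis of
`H²_dR(Y; ℂ)` and a `ℤ`-basis of the group of Chern classes of line bundles, with unimodular
integral intersection matrix. -/
def Unimod (N : ℕ) : Prop :=
  ∃ (E : Fin N → ALB Y) (G : Matrix (Fin N) (Fin N) ℤ),
    (∀ i j, isec (E i).L (E j).L = G i j) ∧ IsUnit G.det ∧
    (∀ F : TwoF Y, F.Smooth → F.Closed → ∃! t : Fin N → ℂ,
      ExactTwo (F - ∑ i, t i • (E i).L.curv)) ∧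
    (∀ L : ALB Y, ∃ k : Fin N → ℤ, ExactTwo (L.L.curv - ∑ i, (k i : ℂ) • (E i).L.curv)) ∧
    ∀ k : Fin N → ℤ, ∃ L : ALB Y, ExactTwo (L.L.curv - ∑ i, (k i : ℂ) • (E i).L.curv)

/-- **The diagonal basis.** -/
def Elk (N : ℕ) : Prop :=
  ∃ E : Fin N → ALB Y,
    (∀ i j, isec (E i).L (E j).L = if i = j then -1 else 0) ∧
    ∀ (i) (K : ALB Y), IsCanon K.L → isec K.L (E i).L = -1

end closed

section covers

variable {X : Type} [TopologicalSpace X] [ChartedSpace C2 X] (h : C(X, UnitAddCircle))

/-- `L` is the trivial bundle spanned by the basis vector `i₀` for `|f| ≥ R` -/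
def EndTriv (L : ALB (Cov h)) (i₀ : L.ι) (R : ℝ) : Prop :=
  ∀ x : Cov h, R ≤ |Cov.f x| → L.L.P x = Matrix.single i₀ i₀ 1

/-- `L'` is the translate of `L` by `γ^k` -/
def IsShift {ι : Type} [Fintype ι] [DecidableEq ι] (k : ℤ) (L L' : LB (Cov h) ι) : Prop :=
  ∀ x : Cov h, L'.P (Cov.shift k x) = L.P x

/-- `L'` on the `m`-fold cover is the periodic extension of `L` -/
def IsPer {ι : Type} [Fintype ι] [DecidableEq ι] (m : ℕ) [NeZero m] (L : LB (Cov h) ι)
    (L' : LB (CovM h m) ι) : Prop :=
  ∀ x : Cov h, 2 * |Cov.f x| ≤ m → L'.P (Cov.toM m x) = L.P x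

/-- **Output of block C.** `N` line bundles on the infinite cyclic cover, trivial at both ends, with
`e_i . γ^k e_j = -δ_{ij} δ_{k0}` and `K . e_i = -1`; their periodic extensions to the finite cyclic
covers have the same numbers. -/
def Out (N : ℕ) : Prop :=
  ∃ (E : Fin N → ALB (Cov h)) (i₀ : ∀ i, (E i).ι) (R : ℝ), 0 ≤ R ∧
    (∀ i, EndTriv h (E i) (i₀ i) R) ∧
    (∀ (i j k) (L' : LB (Cov h) (E j).ι), IsShift h k (E j).L L' →
      isec (E i).L L' = if i = j ∧ k = 0 then -1 else 0) ∧
    (∀ (i) (K : ALB (Cov h)), IsCanon K.L → isec K.L (E i).L = -1) ∧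
    ∀ (m : ℕ) [NeZero m], 2 * R ≤ m → ∀ i, ∃ E' : LB (CovM h m) (E i).ι,
      IsPer h m (E i).L E' ∧ isec E' E' = -1 ∧
      ∀ K : ALB (CovM h m), IsCanon K.L → isec K.L E' = -1

/-- pull back of a two-form from the `m`-fold to the infinite cyclic cover -/
def pullM {h : C(X, UnitAddCircle)} (m : ℕ) [NeZero m] (F : TwoF (CovM h m)) : TwoF (Cov h) :=
  ⟨fun x => F.f20 (Cov.toM m x), fun x => F.f11 (Cov.toM m x), fun x => F.f02 (Cov.toM m x)⟩

/-- **Lift.** Every line bundle `L` on the `m`-fold cover `Y` with `L.L = -1` is, up to a class which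
is zero in real cohomology, the periodic extension of a line bundle `E` on the infinite cyclic
cover which is trivial at both ends: `∫_Y ω ∧ c₁(L) = ∫ (pull back of ω) ∧ c₁(E)` for all closed
`ω`, and `E.E = -1`. -/
def Lift (m : ℕ) [NeZero m] : Prop :=
  ∀ L : ALB (CovM h m), isec L.L L.L = -1 →
    ∃ (E : ALB (Cov h)) (i₀ : E.ι) (R : ℝ), EndTriv h E i₀ R ∧ isec E.L E.L = -1 ∧
      ∀ F : TwoF (CovM h m), F.Smooth → F.Closed → pair F L.L.curv = pair (pullM m F) E.L.curv

end covers

/-! ### the theorems of block C -/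

/-- UNIMOD (packages UNIMOD, UNI-*, CECH-DR) -/
def UnimodThm : Prop :=
  ∀ (Y : Type) [TopologicalSpace Y] [T2Space Y] [CompactSpace Y] [ConnectedSpace Y]
    [ChartedSpace C2 Y] [IsManifold 𝓘(ℂ, C2) ω Y] (N : ℕ), BettiSucc Y 1 N → Unimod Y N

/-- ELK (package C-ELK, from `H775.canonical_basis`) -/
def ElkThm : Prop :=
  ∀ (Y : Type) [TopologicalSpace Y] [T2Space Y] [CompactSpace Y] [ConnectedSpace Y]
    [ChartedSpace C2 Y] [IsManifold 𝓘(ℂ, C2) ω Y] (N : ℕ), SurfIn Y N → Unimod Y N → Elk Y N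

/-- LATTICE-LIFT -/
def LiftThm : Prop :=
  ∀ (X : Type) [TopologicalSpace X] [T2Space X] [CompactSpace X] [ConnectedSpace X]
    [ChartedSpace C2 X] [IsManifold 𝓘(ℂ, C2) ω X] (h : C(X, UnitAddCircle)) (n : ℕ),
    SmoothC (E := C2) h → Primitive h → (∀ (m : ℕ) [NeZero m], SurfIn (CovM h m) (m * n)) →
      ∃ (m : ℕ) (_ : NeZero m), Lift h m

/-- **Block C.** -/
def Thm : Prop :=
  ∀ (X : Type) [TopologicalSpace X] [T2Space X] [CompactSpace X] [ConnectedSpace X]
    [ChartedSpace C2 X] [IsManifold 𝓘(ℂ, C2) ω X] (h : C(X, UnitAddCircle)) (n : ℕ),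
    SmoothC (E := C2) h → Primitive h → (∀ (m : ℕ) [NeZero m], SurfIn (CovM h m) (m * n)) →
      Out h n

end Vale.Agent.P267.BlockC
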