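import Vale.Agent.P267.H283.Facts
import Vale.Agent.P267.H662.KBEx

/-!
# P267, block C: calculus facts (2): closed surfaces, infinite cyclic covers
-/

set_option linter.unusedSectionVars false

open scoped Manifold ContDiff ComplexConjugate
open Set
open Vale.Agent.P267.FL Vale.Agent.P267.H158 Vale.Agent.P267.RR

noncomputable section

namespace Vale.Agent.P267.BlockC

/-- curvature of smooth line bundles -/
structure CurvFacts (M : Type) [TopologicalSpace M] [ChartedSpace C2 M] : Prop where
  smooth : ∀ L : ALB M, L.L.curv.Smooth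
  closed : ∀ L : ALB M, L.L.curv.Closed
  real : ∀ L : ALB M, (Complex.I • L.L.curv).Real
  canon : ∀ K K' : ALB M, IsCanon K.L → IsCanon K'.L → ExactTwo (K.L.curv - K'.L.curv)

section closed

variable {Y : Type} [TopologicalSpace Y] [ChartedSpace C2 Y] [IsManifold 𝓘(ℂ, C2) ω Y]

theorem pair_d' [T2Space Y] [SigmaCompactSpace Y] {A : OneF Y} {F : TwoF Y} (hA : A.Smooth)
    (hF : F.Smooth) (hF' : F.Closed) {K : Set Y} (hK : IsCompact K)
    (h0 : ∀ x ∉ K, F.f20 x = 0 ∧ F.f11 x = 0 ∧ F.f02 x = 0) : pair A.d F = 0 :=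
  FL.intX_dA_wedge hA.c1 hF.c1 hF' hK fun x hx => Or.inr (h0 x hx)

theorem exists_canon [CompactSpace Y] [T2Space Y] : ∃ K : ALB Y, IsCanon K.L := by
  obtain ⟨N, ⟨K⟩⟩ := H662.exists_KBun (X := Y)
  exact ⟨⟨Fin N, K.L⟩, K.σ, K.sm, K.sec, K.ne⟩

/-- the calculus facts on a closed surface -/
theorem formFacts [T2Space Y] [CompactSpace Y] (hC : CurvFacts Y) : FormFacts Y where
  curv_smooth := hC.smooth
  curv_closed := hC.closed
  curv_real := hC.real
  smooth_d _ hA := H857.smooth_d hA
  smooth_add _ _ hF hG := smooth_add hF hG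
  smooth_smul c _ hF := smooth_smul c hF
  closed_smul c _ hF hF' := closed_smul c hF hF'
  pair_add _ _ _ hF hF' hG := pair_add hF hF' hG (HasCompactSupport.of_compactSpace _)
    (HasCompactSupport.of_compactSpace _)
  pair_smul c _ _ hF hG := pair_smul c hF hG (HasCompactSupport.of_compactSpace _)
  pair_d _ _ hA hG hG' := pair_d' hA hG hG' isCompact_univ fun x hx => absurd (mem_univ x) hx
  exact_sub _ _ hF hG := exact_sub hF hG
  exact_smul c _ hF := exact_smul c hF
  canon := hC.canon
  exists_canon := exists_canon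

end closed

section cover

variable {X : Type} [TopologicalSpace X] [ChartedSpace C2 X] {h : C(X, UnitAddCircle)}

theorem isCompact_band [CompactSpace X] (R : ℝ) : IsCompact {x : Cov h | |Cov.f x| ≤ R} := by
  have h1 := Cov.isCompact_slab (h := h) (-R) R
  refine h1.of_isClosed_subset ?_ fun x hx => abs_le.1 hx
  exact isClosed_le Cov.continuous_f.abs continuous_const

theorem sigmaCompact_cov [CompactSpace X] : SigmaCompactSpace (Cov h) :=
  SigmaCompactSpace.of_countable (range fun n : ℕ => {x : Cov h | |Cov.f x| ≤ n})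
    (countable_range _) (by rintro _ ⟨n, rfl⟩; exact isCompact_band _)
    (eq_univ_of_forall fun x => by
      obtain ⟨n, hn⟩ := exists_nat_ge |Cov.f x|
      exact ⟨_, ⟨n, rfl⟩, hn⟩)

theorem CS.compact_wedge [T2Space X] [CompactSpace X] {F : TwoF (Cov h)} (hF : CS F) (G : TwoF (Cov h)) :
    HasCompactSupport (F.wedge G) := by
  obtain ⟨R, hR⟩ := hF
  refine HasCompactSupport.intro (isCompact_band R) fun x hx => ?_
  exact wedge_eq_zero_left (hR x (not_le.1 hx).le)

/-- The facts which come from the covering maps. -/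
structure CovMapFacts (h : C(X, UnitAddCircle)) : Prop where
  smooth_sh : ∀ (k : ℤ) (F : TwoF (Cov h)), F.Smooth → (shF k F).Smooth
  closed_sh : ∀ (k : ℤ) (F : TwoF (Cov h)), F.Smooth → F.Closed → (shF k F).Closed
  pair_sh : ∀ (k : ℤ) (F G : TwoF (Cov h)), F.Smooth → G.Smooth → CS F →
    pair (shF k F) (shF k G) = pair F G
  smooth_pull : ∀ (m : ℕ) [NeZero m] (F : TwoF (CovM h m)), F.Smooth → (pullM m F).Smooth
  canon_pull : ∀ (m : ℕ) [NeZero m] (K : ALB (CovM h m)), IsCanon K.L →
    ∃ K' : ALB (Cov h), IsCanon K'.L ∧ K'.L.curv = pullM m K.L.curv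
  wrap : ∀ (m : ℕ) [NeZero m] (F : TwoF (Cov h)), F.Smooth → F.Closed → CS F →
    ∃ W : TwoF (CovM h m), W.Smooth ∧ W.Closed ∧ (F.Real → W.Real) ∧
      (∀ G : TwoF (CovM h m), G.Smooth → pair W G = pair F (pullM m G)) ∧
      ∀ G : TwoF (Cov h), G.Smooth → CS G →
        pair G (pullM m W) = ∑ᶠ k : ℤ, pair G (shF (m * k) F)
  exists_shift : ∀ (k : ℤ) (L : ALB (Cov h)), ∃ L' : LB (Cov h) L.ι, IsShift h k L.L L'
  curv_shift : ∀ (k : ℤ) (L : ALB (Cov h)) (L' : LB (Cov h) L.ι), IsShift h k L.L L' →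
    L'.curv = shF k L.L.curv
  curv_CS : ∀ (L : ALB (Cov h)) (i₀ : L.ι) (R : ℝ), EndTriv h L i₀ R → CS L.L.curv
  per : ∀ (m : ℕ) [NeZero m] (L : ALB (Cov h)) (i₀ : L.ι) (R : ℝ), EndTriv h L i₀ R →
    2 * R ≤ m → ∃ L' : LB (CovM h m) L.ι, IsPer h m L.L L' ∧
      (∀ G : TwoF (CovM h m), G.Smooth → pair L'.curv G = pair L.L.curv (pullM m G)) ∧
      ∀ G : TwoF (Cov h), G.Smooth → CS G →
        pair G (pullM m L'.curv) = ∑ᶠ k : ℤ, pair G (shF (m * k) L.L.curv)

/-- assembling `CovFacts` -/
theorem covFacts [IsManifold 𝓘(ℂ, C2) ω X] [T2Space X] [CompactSpace X]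
    (hC : CurvFacts (Cov h)) (hM : CovMapFacts h) : CovFacts h :=
  haveI : SigmaCompactSpace (Cov h) := sigmaCompact_cov
  { smooth_zero := smooth_zero
    closed_zero := closed_zero
    smooth_add := fun _ _ hF hG => smooth_add hF hG
    smooth_smul := fun c _ hF => smooth_smul c hF
    closed_add := fun _ _ hF hG hF' hG' => closed_add hF hG hF' hG'
    closed_smul := fun c _ hF hF' => closed_smul c hF hF'
    smooth_sh := hM.smooth_sh
    closed_sh := hM.closed_sh
    pair_add := fun F F' G hF hF' hG hc hc' =>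
      pair_add hF hF' hG (hc.compact_wedge G) (hc'.compact_wedge G)
    pair_add' := fun F G G' hF hG hG' hc => by
      rw [pair_comm, pair_add hG hG' hF (by rw [wedge_comm]; exact hc.compact_wedge G)
        (by rw [wedge_comm]; exact hc.compact_wedge G'), pair_comm G, pair_comm G']
    pair_smul := fun c F G hF hG hc => pair_smul c hF hG (hc.compact_wedge G)
    pair_smul' := fun c F G hF hG hc => by
      rw [pair_comm, pair_smul c hG hF (by rw [wedge_comm]; exact hc.compact_wedge G), pair_comm G]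
    pair_sh := hM.pair_sh
    pair_real := fun F G hF hG hF' hG' hc => pair_real hF hG hF' hG' (hc.compact_wedge G)
    pair_d := fun A F hA hF hF' hc => by
      obtain ⟨R, hR⟩ := hc
      rw [pair_comm]
      exact pair_d' hA hF hF' (isCompact_band R) fun x hx => hR x (not_le.1 hx).le
    smooth_d := fun A hA => H857.smooth_d hA
    curv_smooth := hC.smooth
    curv_closed := hC.closed
    curv_real := hC.real
    canon := hC.canon
    smooth_pull := hM.smooth_pull
    canon_pull := hM.canon_pull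
    wrap := hM.wrap
    exists_shift := hM.exists_shift
    curv_shift := hM.curv_shift
    curv_CS := hM.curv_CS
    per := hM.per }

end cover

/-- integral Poincaré duality, in the form delivered by `H994` -/
def UnimodThm' : Prop :=
  ∀ (Y : Type) [TopologicalSpace Y] [T2Space Y] [CompactSpace Y] [ConnectedSpace Y]
    [ChartedSpace C2 Y] [IsManifold 𝓘(ℂ, C2) ω Y] (N : ℕ), SurfIn Y N → Unimod Y N

/-- all curvature facts -/
def CurvThm : Prop :=
  ∀ (M : Type) [TopologicalSpace M] [T2Space M] [ChartedSpace C2 M] [IsManifold 𝓘(ℂ, C2) ω M],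
    CurvFacts M

/-- all facts on the covering maps -/
def CovMapThm : Prop :=
  ∀ (X : Type) [TopologicalSpace X] [T2Space X] [CompactSpace X]
    [ChartedSpace C2 X] [IsManifold 𝓘(ℂ, C2) ω X] (h : C(X, UnitAddCircle)), CovMapFacts h

/-- **Block C**, from its four inputs. -/
theorem thm_of (hU : UnimodThm') (hL : LiftThm) (hC : CurvThm) (hM : CovMapThm) : Thm := by
  intro X _ _ _ _ _ _ h n hsm hpr hS
  haveI : LocallyConnectedSpace X := ChartedSpace.locallyConnectedSpace C2 X
  have hconn : ∀ (m : ℕ) [NeZero m], ConnectedSpace (CovM h m) := fun m _ =>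
    CovM.connectedSpace hpr m
  have hF : ∀ (m : ℕ) [NeZero m], FormFacts (CovM h m) := fun m _ => formFacts (hC _)
  have hUm : ∀ (m : ℕ) [NeZero m], Unimod (CovM h m) (m * n) := fun m _ => by
    haveI := hconn m
    exact hU _ _ (hS m)
  obtain ⟨M, hM0, hLift⟩ := hL X h n hsm hpr hS
  exact (covFacts (hC _) (hM X h)).out hS hF hUm M ((hF M).elk (hS M) (hUm M)) hLift

end Vale.Agent.P267.BlockC
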