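import Vale.Agent.P267.H283.Pars1
import Vale.Agent.P267.H928.K1.Main
import Vale.Agent.P267.H75.Num

/-!
# P267, (F2): integrality and Parseval (2), the infinite cyclic cover

`E i` (`i : Fin n`) the line bundles of block C, `Eb b` (`b : Fin n × ℤ`) their translates. For line
bundles `L`, `M` on `Cov h` which are trivial at both ends:

* `isec_int_cov` : `L·M` is an integer;
* `exists_coef` : `x_b = -L·E_b` is an integer, zero for almost all `b`;
* `isec_parseval` : `L·M = -∑ x_b y_b`; `isec_sq` : `L·L = -∑ x_b²`;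
* `isec_canon_parseval` : `K·L = -∑ x_b`;
* `chi_parseval` : `L·L - K·L = -∑ x_b (x_b - 1)`.
-/

set_option linter.unusedVariables false
set_option linter.unusedSectionVars false

open scoped Manifold ContDiff ComplexConjugate
open Set
open Vale.Agent.P267.FL Vale.Agent.P267.H158 Vale.Agent.P267.RR Vale.Agent.P267.BlockC

noncomputable section

namespace Vale.Agent.P267.H283

variable {X : Type} [TopologicalSpace X] [ChartedSpace C2 X] {h : C(X, UnitAddCircle)}

section forms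

/-- the wrapped form on the finite cover -/
theorem exists_wr (H : CovFacts h) (m : ℕ) [NeZero m] (F : TwoF (Cov h)) (hF : F.Smooth)
    (hF' : F.Closed) (hc : CS F) : ∃ W : TwoF (CovM h m), W.Smooth ∧ W.Closed ∧
      (∀ G : TwoF (CovM h m), G.Smooth → pair W G = pair F (pullM m G)) ∧
      ∀ G : TwoF (Cov h), G.Smooth → CS G →
        pair G (pullM m W) = ∑ᶠ k : ℤ, pair G (shF (m * k) F) := by
  obtain ⟨W, h1, h2, -, h4, h5⟩ := H.wrap m F hF hF' hc
  exact ⟨W, h1, h2, h4, h5⟩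

/-- a periodic sum with at most one nonzero term -/
theorem pair_shF_shF (H : CovFacts h) {F G : TwoF (Cov h)} (hF : F.Smooth) (hG : G.Smooth)
    (hc : CS F) (j k : ℤ) : pair (shF j F) (shF k G) = pair F (shF (k - j) G) := by
  have h1 : shF k G = shF j (shF (k - j) G) := by
    rw [shF_shF]
    congr 1
    ring
  rw [h1, H.pair_sh j _ _ hF (H.smooth_sh _ _ hG) hc]

/-- residues are represented in `[-a, a]`, modulo `2a+1` -/
theorem resid {a : ℕ} {j : ℤ} (hj : |j| ≤ a) {k : ℤ} (hk : k ≠ 0) :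
    (a : ℤ) + 1 ≤ |((2 * a + 1 : ℕ) : ℤ) * k + j| := by
  push_cast
  rw [abs_le] at hj
  rcases lt_or_gt_of_ne hk with h1 | h1
  · rw [le_abs]
    right
    nlinarith
  · rw [le_abs]
    left
    nlinarith

variable [T2Space X] [CompactSpace X] [IsManifold 𝓘(ℂ, C2) ω X]

/-- **Parseval** for forms on the infinite cyclic cover, finite version -/
theorem pair_parseval_fin (H : CovFacts h) (hFF : ∀ (m : ℕ) [NeZero m], FormFacts (CovM h m))
    {n : ℕ} (hB : ∀ (m : ℕ) [NeZero m], BettiSucc (CovM h m) 1 (m * n))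
    {C : Fin n → TwoF (Cov h)} (hC1 : ∀ i, (C i).Smooth) (hC2 : ∀ i, (C i).Closed)
    (hC3 : ∀ i, CS (C i)) {c : ℂ} (hc : c ≠ 0)
    (hC : ∀ i j k, pair (C i) (shF k (C j)) = if i = j ∧ k = 0 then c else 0)
    {F G : TwoF (Cov h)} (hF : F.Smooth) (hF' : F.Closed) (hFc : CS F) (hG : G.Smooth)
    (hG' : G.Closed) (hGc : CS G) : ∃ a₀ : ℕ, ∀ a : ℕ, a₀ ≤ a →
      pair F G = c⁻¹ * ∑ b : Fin n × Fin (2 * a + 1),
        pair F (shF ((b.2 : ℤ) - a) (C b.1)) * pair G (shF ((b.2 : ℤ) - a) (C b.1)) := by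
  classical
  obtain ⟨N0, hN0⟩ := hFc.pair_sh hGc
  have hN1 := fun i => hFc.pair_sh (hC3 i)
  have hN2 := fun i => hGc.pair_sh (hC3 i)
  choose N1 hN1 using hN1
  choose N2 hN2 using hN2
  refine ⟨N0 + ∑ i, N1 i + ∑ i, N2 i, fun a ha => ?_⟩
  have hle1 : ∀ i, N1 i ≤ a := fun i => by
    have := Finset.single_le_sum (f := N1) (fun j _ => Nat.zero_le _) (Finset.mem_univ i)
    omega
  have hle2 : ∀ i, N2 i ≤ a := fun i => by
    have := Finset.single_le_sum (f := N2) (fun j _ => Nat.zero_le _) (Finset.mem_univ i)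
    omega
  have hle0 : N0 ≤ a := by omega
  have _ : NeZero (2 * a + 1) := ⟨by omega⟩
  set m : ℕ := 2 * a + 1 with hm
  obtain ⟨WF, hWF1, hWF2, hWF3, -⟩ := exists_wr H m F hF hF' hFc
  obtain ⟨WG, hWG1, hWG2, hWG3, hWG4⟩ := exists_wr H m G hG hG' hGc
  have hw := fun b : Fin n × Fin m => exists_wr H m (shF ((b.2 : ℤ) - a) (C b.1))
    (H.smooth_sh _ _ (hC1 _)) (H.closed_sh _ _ (hC1 _) (hC2 _)) ((hC3 _).sh _)
  choose w hw1 hw2 hw3 hw4 using hw
  have habs : ∀ j : Fin m, |(j : ℤ) - a| ≤ a := fun j => by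
    have h1 := j.2
    rw [abs_le]
    constructor <;> omega
  -- the pairing of `F` and `G`
  have h0 : pair WF WG = pair F G := by
    rw [hWF3 _ hWG1, hWG4 F hF hFc, finsum_eq_single _ 0]
    · rw [mul_zero, shF_zero]
    · intro k hk
      apply hN0
      have h1 := resid (a := a) (j := 0) (by simp) hk
      rw [add_zero] at h1
      have : (N0 : ℤ) ≤ a := by exact_mod_cast hle0
      linarith
  -- the pairings with `w b`
  have h1 : ∀ b, pair WF (w b) = pair F (shF ((b.2 : ℤ) - a) (C b.1)) := by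
    intro b
    rw [hWF3 _ (hw1 b), hw4 b F hF hFc, finsum_eq_single _ 0]
    · rw [mul_zero, shF_zero]
    · intro k hk
      rw [shF_shF]
      apply hN1
      have h2 := resid (a := a) (habs b.2) hk
      have : (N1 b.1 : ℤ) ≤ a := by exact_mod_cast hle1 b.1
      linarith
  have h2 : ∀ b, pair WG (w b) = pair G (shF ((b.2 : ℤ) - a) (C b.1)) := by
    intro b
    rw [hWG3 _ (hw1 b), hw4 b G hG hGc, finsum_eq_single _ 0]
    · rw [mul_zero, shF_zero]
    · intro k hk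
      rw [shF_shF]
      apply hN2
      have h2 := resid (a := a) (habs b.2) hk
      have : (N2 b.1 : ℤ) ≤ a := by exact_mod_cast hle2 b.1
      linarith
  -- orthogonality
  have h3 : ∀ b b', pair (w b) (w b') = if b = b' then c else 0 := by
    intro b b'
    rw [hw3 b _ (hw1 b'), hw4 b' _ (H.smooth_sh _ _ (hC1 _)) ((hC3 _).sh _)]
    have h4 : ∀ k : ℤ, pair (shF ((b.2 : ℤ) - a) (C b.1))
        (shF (m * k) (shF ((b'.2 : ℤ) - a) (C b'.1))) =
          if b.1 = b'.1 ∧ m * k + ((b'.2 : ℤ) - a) - ((b.2 : ℤ) - a) = 0 then c else 0 := by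
      intro k
      rw [shF_shF, pair_shF_shF H (hC1 _) (hC1 _) (hC3 _), hC]
    rw [finsum_congr h4, finsum_eq_single _ 0]
    · rw [mul_zero, zero_add]
      congr 1
      apply propext
      rw [Prod.ext_iff, sub_sub_sub_cancel_right, sub_eq_zero]
      constructor
      · rintro ⟨h5, h6⟩
        exact ⟨h5, Fin.ext (by exact_mod_cast h6.symm)⟩
      · rintro ⟨h5, h6⟩
        exact ⟨h5, by rw [h6]⟩
    · intro k hk
      rw [if_neg]
      rintro ⟨-, h5⟩
      have h6 := b.2.2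
      have h7 := b'.2.2
      have h8 : (m : ℤ) * k = (b.2 : ℤ) - b'.2 := by linarith
      have h9 : |(m : ℤ) * k| < m := by
        rw [h8, abs_lt]
        constructor <;> omega
      rw [abs_mul, abs_of_nonneg (by positivity : (0 : ℤ) ≤ m)] at h9
      have h10 : 1 ≤ |k| := Int.one_le_abs hk
      nlinarith
  rw [← h0, parseval (hFF m) (hB m) (by simp [mul_comm]) hc hw1 hw2 h3 hWF1 hWF2 hWG1 hWG2]
  simp only [h1, h2]

/-- the sum over the representatives as a sum over all translates -/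
theorem finsum_repr {n : ℕ} {f : Fin n × ℤ → ℂ} {a : ℕ} (hf : ∀ b, (a : ℤ) < |b.2| → f b = 0) :
    ∑ᶠ b, f b = ∑ b : Fin n × Fin (2 * a + 1), f (b.1, (b.2 : ℤ) - a) := by
  classical
  have hinj : Function.Injective fun b : Fin n × Fin (2 * a + 1) =>
      ((b.1, (b.2 : ℤ) - a) : Fin n × ℤ) := by
    intro b b' hb
    rw [Prod.mk.injEq] at hb
    exact Prod.ext hb.1 (Fin.ext (by have := hb.2; omega))
  rw [finsum_eq_sum_of_support_subset (s := Finset.univ.map ⟨_, hinj⟩), Finset.sum_map]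
  · rfl
  · intro b hb
    rw [Function.mem_support] at hb
    rw [Finset.mem_coe, Finset.mem_map]
    have h1 : |b.2| ≤ a := not_lt.1 fun h2 => hb (hf b h2)
    rw [abs_le] at h1
    refine ⟨(b.1, ⟨(b.2 + a).toNat, by omega⟩), Finset.mem_univ _, ?_⟩
    refine Prod.ext rfl ?_
    change (((b.2 + a).toNat : ℕ) : ℤ) - a = b.2
    omega

/-- **Parseval** for forms on the infinite cyclic cover -/
theorem pair_parseval (H : CovFacts h) (hFF : ∀ (m : ℕ) [NeZero m], FormFacts (CovM h m))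
    {n : ℕ} (hB : ∀ (m : ℕ) [NeZero m], BettiSucc (CovM h m) 1 (m * n))
    {C : Fin n → TwoF (Cov h)} (hC1 : ∀ i, (C i).Smooth) (hC2 : ∀ i, (C i).Closed)
    (hC3 : ∀ i, CS (C i)) {c : ℂ} (hc : c ≠ 0)
    (hC : ∀ i j k, pair (C i) (shF k (C j)) = if i = j ∧ k = 0 then c else 0)
    {F G : TwoF (Cov h)} (hF : F.Smooth) (hF' : F.Closed) (hFc : CS F) (hG : G.Smooth)
    (hG' : G.Closed) (hGc : CS G) :
    pair F G = c⁻¹ * ∑ᶠ b : Fin n × ℤ, pair F (shF b.2 (C b.1)) * pair G (shF b.2 (C b.1)) := by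
  obtain ⟨a₀, ha₀⟩ := pair_parseval_fin H hFF hB hC1 hC2 hC3 hc hC hF hF' hFc hG hG' hGc
  have hN1 := fun i => hFc.pair_sh (hC3 i)
  choose N1 hN1 using hN1
  set a : ℕ := a₀ + ∑ i, N1 i with ha
  have hle1 : ∀ i, N1 i ≤ a := fun i => by
    have := Finset.single_le_sum (f := N1) (fun j _ => Nat.zero_le _) (Finset.mem_univ i)
    omega
  rw [ha₀ a (by omega), finsum_repr (a := a)]
  intro b hb
  rw [hN1 b.1 b.2 (by have : (N1 b.1 : ℤ) ≤ a := by exact_mod_cast hle1 b.1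
                      linarith), zero_mul]

omit [T2Space X] [CompactSpace X] [IsManifold 𝓘(ℂ, C2) ω X] in
/-- the pairing with the canonical class does not depend on the canonical bundle -/
theorem pair_canon_eq (H : CovFacts h) {K K' : ALB (Cov h)} (hK : IsCanon K.L)
    (hK' : IsCanon K'.L) {F : TwoF (Cov h)} (hF : F.Smooth) (hF' : F.Closed) (hFc : CS F) :
    pair F K.L.curv = pair F K'.L.curv := by
  obtain ⟨A, hA, hAd⟩ := H.canon K K' hK hK'
  have h1 : K.L.curv = K'.L.curv + A.d := by rw [hAd]; abel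
  rw [h1, H.pair_add' _ _ _ hF (H.curv_smooth K') (H.smooth_d A hA) hFc,
    H.pair_d A _ hA hF hF' hFc, add_zero]

omit [T2Space X] [CompactSpace X] [IsManifold 𝓘(ℂ, C2) ω X] in
/-- the pairing with the canonical class is invariant under translation -/
theorem pair_canon_sh (H : CovFacts h) (hFF : ∀ (m : ℕ) [NeZero m], FormFacts (CovM h m))
    {K : ALB (Cov h)} (hK : IsCanon K.L) {F : TwoF (Cov h)} (hF : F.Smooth) (hF' : F.Closed)
    (hFc : CS F) (k : ℤ) : pair (shF k F) K.L.curv = pair F K.L.curv := by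
  obtain ⟨K1, hK1⟩ := (hFF 1).exists_canon
  obtain ⟨K0, hK0, hK0c⟩ := H.canon_pull 1 K1 hK1
  have h1 : ∀ x : Cov h, Cov.toM 1 (Cov.shift (-k) x) = Cov.toM 1 x := fun x => by
    rw [eq_comm, Cov.toM_eq_iff]
    exact ⟨-k, by simp⟩
  have h2 : shF k K0.L.curv = K0.L.curv := by
    rw [hK0c]
    unfold shF pullM
    simp only [h1]
  rw [pair_canon_eq H hK hK0 (H.smooth_sh _ _ hF) (H.closed_sh _ _ hF hF') (hFc.sh k),
    pair_canon_eq H hK hK0 hF hF' hFc]
  conv_lhs => rw [← h2]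
  rw [H.pair_sh k _ _ hF (H.curv_smooth K0) hFc]

/-- **Parseval** with the canonical class -/
theorem pair_canon_parseval (H : CovFacts h)
    (hFF : ∀ (m : ℕ) [NeZero m], FormFacts (CovM h m))
    {n : ℕ} (hB : ∀ (m : ℕ) [NeZero m], BettiSucc (CovM h m) 1 (m * n))
    {C : Fin n → TwoF (Cov h)} (hC1 : ∀ i, (C i).Smooth) (hC2 : ∀ i, (C i).Closed)
    (hC3 : ∀ i, CS (C i)) {c : ℂ} (hc : c ≠ 0)
    (hC : ∀ i j k, pair (C i) (shF k (C j)) = if i = j ∧ k = 0 then c else 0)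
    {F : TwoF (Cov h)} (hF : F.Smooth) (hF' : F.Closed) (hFc : CS F) {K : ALB (Cov h)}
    (hK : IsCanon K.L) :
    pair F K.L.curv =
      c⁻¹ * ∑ᶠ b : Fin n × ℤ, pair F (shF b.2 (C b.1)) * pair (C b.1) K.L.curv := by
  classical
  have hN1 := fun i => hFc.pair_sh (hC3 i)
  choose N1 hN1 using hN1
  set a : ℕ := ∑ i, N1 i with ha
  have hle1 : ∀ i, N1 i ≤ a := fun i =>
    Finset.single_le_sum (f := N1) (fun j _ => Nat.zero_le _) (Finset.mem_univ i)
  have _ : NeZero (2 * a + 1) := ⟨by omega⟩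
  set m : ℕ := 2 * a + 1 with hm
  obtain ⟨WF, hWF1, hWF2, hWF3, -⟩ := exists_wr H m F hF hF' hFc
  have hw := fun b : Fin n × Fin m => exists_wr H m (shF ((b.2 : ℤ) - a) (C b.1))
    (H.smooth_sh _ _ (hC1 _)) (H.closed_sh _ _ (hC1 _) (hC2 _)) ((hC3 _).sh _)
  choose w hw1 hw2 hw3 hw4 using hw
  have habs : ∀ j : Fin m, |(j : ℤ) - a| ≤ a := fun j => by
    have h1 := j.2
    rw [abs_le]
    constructor <;> omega
  obtain ⟨K1, hK1⟩ := (hFF m).exists_canon
  obtain ⟨K0, hK0, hK0c⟩ := H.canon_pull m K1 hK1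
  have h0 : pair WF K1.L.curv = pair F K.L.curv := by
    rw [hWF3 _ ((hFF m).curv_smooth K1), ← hK0c, pair_canon_eq H hK0 hK hF hF' hFc]
  have h1 : ∀ b, pair WF (w b) = pair F (shF ((b.2 : ℤ) - a) (C b.1)) := by
    intro b
    rw [hWF3 _ (hw1 b), hw4 b F hF hFc, finsum_eq_single _ 0]
    · rw [mul_zero, shF_zero]
    · intro k hk
      rw [shF_shF]
      apply hN1
      have h2 := resid (a := a) (habs b.2) hk
      have : (N1 b.1 : ℤ) ≤ a := by exact_mod_cast hle1 b.1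
      linarith
  have h2 : ∀ b, pair K1.L.curv (w b) = pair (C b.1) K.L.curv := by
    intro b
    rw [BlockC.pair_comm, hw3 _ _ ((hFF m).curv_smooth K1), ← hK0c,
      pair_canon_eq H hK0 hK (H.smooth_sh _ _ (hC1 _)) (H.closed_sh _ _ (hC1 _) (hC2 _))
        ((hC3 _).sh _), pair_canon_sh H hFF hK (hC1 _) (hC2 _) (hC3 _)]
  -- orthogonality
  have h3 : ∀ b b', pair (w b) (w b') = if b = b' then c else 0 := by
    intro b b'
    rw [hw3 b _ (hw1 b'), hw4 b' _ (H.smooth_sh _ _ (hC1 _)) ((hC3 _).sh _)]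
    have h4 : ∀ k : ℤ, pair (shF ((b.2 : ℤ) - a) (C b.1))
        (shF (m * k) (shF ((b'.2 : ℤ) - a) (C b'.1))) =
          if b.1 = b'.1 ∧ m * k + ((b'.2 : ℤ) - a) - ((b.2 : ℤ) - a) = 0 then c else 0 := by
      intro k
      rw [shF_shF, pair_shF_shF H (hC1 _) (hC1 _) (hC3 _), hC]
    rw [finsum_congr h4, finsum_eq_single _ 0]
    · rw [mul_zero, zero_add]
      congr 1
      apply propext
      rw [Prod.ext_iff, sub_sub_sub_cancel_right, sub_eq_zero]
      constructor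
      · rintro ⟨h5, h6⟩
        exact ⟨h5, Fin.ext (by exact_mod_cast h6.symm)⟩
      · rintro ⟨h5, h6⟩
        exact ⟨h5, by rw [h6]⟩
    · intro k hk
      rw [if_neg]
      rintro ⟨-, h5⟩
      have h6 := b.2.2
      have h7 := b'.2.2
      have h8 : (m : ℤ) * k = (b.2 : ℤ) - b'.2 := by linarith
      have h9 : |(m : ℤ) * k| < m := by
        rw [h8, abs_lt]
        constructor <;> omega
      rw [abs_mul, abs_of_nonneg (by positivity : (0 : ℤ) ≤ m)] at h9
      have h10 : 1 ≤ |k| := Int.one_le_abs hk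
      nlinarith
  rw [← h0, parseval (hFF m) (hB m) (by simp [mul_comm]) hc hw1 hw2 h3 hWF1 hWF2
    ((hFF m).curv_smooth K1) ((hFF m).curv_closed K1), finsum_repr (a := a)]
  · refine congrArg _ (Finset.sum_congr rfl fun b _ => ?_)
    rw [h1, h2]
  · intro b hb
    rw [hN1 b.1 b.2 (by have : (N1 b.1 : ℤ) ≤ a := by exact_mod_cast hle1 b.1
                        linarith), zero_mul]

end forms

section bundles

theorem isec_ten_cov [IsManifold 𝓘(ℂ, C2) ω X] (H : CovFacts h) {L L' M : ALB (Cov h)}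
    (hL : CS L.L.curv) (hL' : CS L'.L.curv) :
    isec (ten L L').L M.L = isec L.L M.L + isec L'.L M.L := by
  rw [BlockC.isec_eq, BlockC.isec_eq, BlockC.isec_eq, ten_curv,
    H.pair_add _ _ _ (H.curv_smooth L) (H.curv_smooth L') (H.curv_smooth M) hL hL']
  ring

theorem isec_du_cov [IsManifold 𝓘(ℂ, C2) ω X] (H : CovFacts h) {L M : ALB (Cov h)}
    (hL : CS L.L.curv) : isec (du L).L M.L = -isec L.L M.L := by
  rw [BlockC.isec_eq, BlockC.isec_eq, du_curv,
    H.pair_smul _ _ _ (H.curv_smooth L) (H.curv_smooth M) hL]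
  ring

theorem endTriv_mono {L : ALB (Cov h)} {i₀ : L.ι} {R R' : ℝ} (hL : EndTriv h L i₀ R)
    (hR : R ≤ R') : EndTriv h L i₀ R' := fun x hx => hL x (hR.trans hx)

theorem endTriv_ten {L M : ALB (Cov h)} {i₀ : L.ι} {j₀ : M.ι} {R R' : ℝ}
    (hL : EndTriv h L i₀ R) (hM : EndTriv h M j₀ R') :
    EndTriv h (ten L M) (i₀, j₀) (max R R') := by
  intro x hx
  change Matrix.kroneckerMap (· * ·) (L.L.P x) (M.L.P x) =
    Matrix.single ((i₀, j₀) : L.ι × M.ι) (i₀, j₀) (1 : ℂ)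
  rw [hL x ((le_max_left _ _).trans hx), hM x ((le_max_right _ _).trans hx),
    Matrix.kroneckerMap_single_single _ _ _ _ _ (fun a => zero_mul a) (fun a => mul_zero a),
    mul_one]

theorem endTriv_du {L : ALB (Cov h)} {i₀ : L.ι} {R : ℝ} (hL : EndTriv h L i₀ R) :
    EndTriv h (du L) i₀ R := by
  intro x hx
  change Matrix.transpose (L.L.P x) = Matrix.single i₀ i₀ 1
  rw [hL x hx, Matrix.transpose_single]

/-- **Intersection numbers on the cover are integers.** -/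
theorem isec_int_cov (H : CovFacts h) (hFF : ∀ (m : ℕ) [NeZero m], FormFacts (CovM h m))
    [IsManifold 𝓘(ℂ, C2) ω X] {n : ℕ} (hS : ∀ (m : ℕ) [NeZero m], SurfIn (CovM h m) (m * n))
    {L M : ALB (Cov h)} {i₀ : L.ι} {j₀ : M.ι} {R R' : ℝ} (hL : EndTriv h L i₀ R)
    (hM : EndTriv h M j₀ R') : ∃ z : ℤ, isec L.L M.L = z := by
  obtain ⟨m₁, hm₁⟩ := H75.exists_per H hFF hL hM
  have _ : NeZero (m₁ + 1) := ⟨by omega⟩
  obtain ⟨L', M', -, -, h3, -, -⟩ := hm₁ (m₁ + 1) (by omega)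
  obtain ⟨z, hz⟩ := isec_int (hFF (m₁ + 1)) (hS (m₁ + 1)) ⟨L.ι, L'⟩ ⟨M.ι, M'⟩
  exact ⟨z, by rw [← h3]; exact hz⟩

variable [T2Space X] [CompactSpace X] [IsManifold 𝓘(ℂ, C2) ω X] {n : ℕ}
  {E : Fin n → ALB (Cov h)} {i₀ : ∀ i, (E i).ι} {R : ℝ} (H : CovFacts h)
  (hFF : ∀ (m : ℕ) [NeZero m], FormFacts (CovM h m))
  (hS : ∀ (m : ℕ) [NeZero m], SurfIn (CovM h m) (m * n)) (hO : H928.K1.OutData h E i₀ R)
  {Eb : ∀ b : Fin n × ℤ, LB (Cov h) (E b.1).ι} (hEb : ∀ b, IsShift h b.2 (E b.1).L (Eb b))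

omit [T2Space X] [CompactSpace X] [IsManifold 𝓘(ℂ, C2) ω X] in
include H hEb in
theorem pair_Eb (L : ALB (Cov h)) (b : Fin n × ℤ) :
    pair L.L.curv (shF b.2 (E b.1).L.curv) = -(4 * (Real.pi : ℂ) ^ 2) * isec L.L (Eb b) := by
  rw [← H.curv_shift _ _ _ (hEb b)]
  have h1 : isec L.L (Eb b) = -(1 / (4 * (Real.pi : ℂ) ^ 2)) * pair L.L.curv (Eb b).curv := rfl
  have h2 := H928.K1.pi4_ne
  rw [h1]
  field_simp

include H hFF hS hO hEb

/-- **The coefficients.** `x_b = -L·E_b` is an integer, zero for almost all `b`. -/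
theorem exists_coef {L : ALB (Cov h)} {l₀ : L.ι} {R' : ℝ} (hL : EndTriv h L l₀ R') :
    ∃ x : Fin n × ℤ → ℤ, (Function.support x).Finite ∧ ∀ b, isec L.L (Eb b) = -(x b : ℂ) := by
  classical
  have h1 : ∀ b, ∃ z : ℤ, isec L.L (Eb b) = -(z : ℂ) := by
    intro b
    obtain ⟨z, hz⟩ := isec_int_cov H hFF hS hL (M := ⟨(E b.1).ι, Eb b⟩)
      (CovFacts.endTriv_shift (hO.triv b.1) (hEb b))
    refine ⟨-z, ?_⟩
    rw [hz]
    push_cast
    ring
  choose x hx using h1
  refine ⟨x, ?_, hx⟩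
  have hLc := H.curv_CS L l₀ R' hL
  have hN := fun i => hLc.pair_sh (hO.cs i)
  choose N hN using hN
  refine (Set.finite_univ.prod (Set.finite_Icc (-((∑ i, N i : ℕ) : ℤ)) (∑ i, N i : ℕ))).subset ?_
  intro b hb
  refine ⟨Set.mem_univ _, ?_⟩
  by_contra h2
  rw [Set.mem_Icc, ← abs_le, not_le] at h2
  have h3 : N b.1 ≤ ∑ i, N i :=
    Finset.single_le_sum (f := N) (fun j _ => Nat.zero_le _) (Finset.mem_univ _)
  have h4 : (N b.1 : ℤ) ≤ (∑ i, N i : ℕ) := by exact_mod_cast h3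
  have h5 := hN b.1 b.2 (by linarith)
  rw [pair_Eb H hEb, hx] at h5
  have h6 := H928.K1.pi4_ne
  have h7 : (x b : ℂ) = 0 := by
    rcases mul_eq_zero.1 h5 with h8 | h8
    · exact absurd (neg_eq_zero.1 h8) h6
    · exact neg_eq_zero.1 h8
  exact hb (by exact_mod_cast h7)

/-- **Parseval.** `L·M = -∑ x_b y_b`. -/
theorem isec_parseval {L M : ALB (Cov h)} {l₀ : L.ι} {m₀ : M.ι} {R' R'' : ℝ}
    (hL : EndTriv h L l₀ R') (hM : EndTriv h M m₀ R'') {x y : Fin n × ℤ → ℤ}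
    (hx : ∀ b, isec L.L (Eb b) = -(x b : ℂ)) (hy : ∀ b, isec M.L (Eb b) = -(y b : ℂ)) :
    isec L.L M.L = -((∑ᶠ b, x b * y b : ℤ) : ℂ) := by
  have h1 := pair_parseval H hFF (fun m _ => (hS m).b2) (C := fun i => (E i).L.curv)
    (fun i => H.curv_smooth _) (fun i => H.curv_closed _) (fun i => hO.cs i) H928.K1.pi4_ne
    (fun i j k => hO.pair_curv i j k) (H.curv_smooth L) (H.curv_closed L)
    (H.curv_CS L l₀ R' hL) (H.curv_smooth M) (H.curv_closed M) (H.curv_CS M m₀ R'' hM)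
  have h2 : ∀ b : Fin n × ℤ, pair L.L.curv (shF b.2 (E b.1).L.curv) *
      pair M.L.curv (shF b.2 (E b.1).L.curv) =
        ((4 * (Real.pi : ℂ) ^ 2) ^ 2) * ((x b * y b : ℤ) : ℂ) := by
    intro b
    rw [pair_Eb H hEb, pair_Eb H hEb, hx, hy]
    push_cast
    ring
  obtain ⟨x', hx'1, hx'2⟩ := exists_coef H hFF hS hO hEb hL
  have h3 : x = x' := by
    funext b
    have := hx b
    rw [hx'2 b] at this
    exact_mod_cast (neg_injective this).symm
  have hfin : (Function.support fun b => x b * y b).Finite := by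
    refine (h3 ▸ hx'1 : (Function.support x).Finite).subset fun b hb => ?_
    rw [Function.mem_support] at hb ⊢
    exact left_ne_zero_of_mul hb
  have h4 : (∑ᶠ b, ((x b * y b : ℤ) : ℂ)) = ((∑ᶠ b, x b * y b : ℤ) : ℂ) :=
    ((Int.castAddHom ℂ).map_finsum hfin).symm
  rw [finsum_congr h2, ← mul_finsum, h4] at h1
  rw [BlockC.isec_eq, h1]
  have h6 := H928.K1.pi4_ne
  field_simp

/-- `L·L = -∑ x_b²` -/
theorem isec_sq {L : ALB (Cov h)} {l₀ : L.ι} {R' : ℝ} (hL : EndTriv h L l₀ R')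
    {x : Fin n × ℤ → ℤ} (hx : ∀ b, isec L.L (Eb b) = -(x b : ℂ)) :
    isec L.L L.L = -((∑ᶠ b, x b ^ 2 : ℤ) : ℂ) := by
  rw [isec_parseval H hFF hS hO hEb hL hL hx hx]
  simp only [sq]

/-- `K·L = -∑ x_b` -/
theorem isec_canon_parseval {L : ALB (Cov h)} {l₀ : L.ι} {R' : ℝ} (hL : EndTriv h L l₀ R')
    {x : Fin n × ℤ → ℤ} (hx : ∀ b, isec L.L (Eb b) = -(x b : ℂ)) {K : ALB (Cov h)}
    (hK : IsCanon K.L) : isec K.L L.L = -((∑ᶠ b, x b : ℤ) : ℂ) := by
  have h1 := pair_canon_parseval H hFF (fun m _ => (hS m).b2) (C := fun i => (E i).L.curv)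
    (fun i => H.curv_smooth _) (fun i => H.curv_closed _) (fun i => hO.cs i) H928.K1.pi4_ne
    (fun i j k => hO.pair_curv i j k) (H.curv_smooth L) (H.curv_closed L)
    (H.curv_CS L l₀ R' hL) hK
  have h2 : ∀ b : Fin n × ℤ, pair L.L.curv (shF b.2 (E b.1).L.curv) *
      pair (E b.1).L.curv K.L.curv = ((4 * (Real.pi : ℂ) ^ 2) ^ 2) * ((x b : ℤ) : ℂ) := by
    intro b
    have h3 := hO.canon b.1 K hK
    have h4 : pair (E b.1).L.curv K.L.curv = 4 * (Real.pi : ℂ) ^ 2 := by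
      rw [BlockC.pair_comm, H928.K1.intX_of_isec (t := 1) h3, mul_one]
    rw [pair_Eb H hEb, hx, h4]
    ring
  obtain ⟨x', hx'1, hx'2⟩ := exists_coef H hFF hS hO hEb hL
  have h3 : x = x' := by
    funext b
    have := hx b
    rw [hx'2 b] at this
    exact_mod_cast (neg_injective this).symm
  have hfin : (Function.support x).Finite := h3 ▸ hx'1
  have h4 : (∑ᶠ b, ((x b : ℤ) : ℂ)) = ((∑ᶠ b, x b : ℤ) : ℂ) :=
    ((Int.castAddHom ℂ).map_finsum hfin).symm
  rw [finsum_congr h2, ← mul_finsum, h4] at h1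
  rw [BlockC.isec_comm, BlockC.isec_eq, h1]
  have h6 := H928.K1.pi4_ne
  field_simp

/-- `L·L - K·L = -∑ x_b (x_b - 1)` -/
theorem chi_parseval {L : ALB (Cov h)} {l₀ : L.ι} {R' : ℝ} (hL : EndTriv h L l₀ R')
    {x : Fin n × ℤ → ℤ} (hx : ∀ b, isec L.L (Eb b) = -(x b : ℂ)) {K : ALB (Cov h)}
    (hK : IsCanon K.L) :
    isec L.L L.L - isec K.L L.L = -((∑ᶠ b, x b * (x b - 1) : ℤ) : ℂ) := by
  obtain ⟨x', hx'1, hx'2⟩ := exists_coef H hFF hS hO hEb hL
  have h3 : x = x' := by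
    funext b
    have := hx b
    rw [hx'2 b] at this
    exact_mod_cast (neg_injective this).symm
  have hfin : (Function.support x).Finite := h3 ▸ hx'1
  have h4 : (∑ᶠ b, x b * (x b - 1)) = (∑ᶠ b, x b ^ 2) - ∑ᶠ b, x b := by
    rw [← finsum_sub_distrib _ hfin]
    · exact finsum_congr fun b => by ring
    · exact hfin.subset fun b hb => by
        rw [Function.mem_support] at hb ⊢
        exact fun h0 => hb (by rw [h0]; norm_num)
  rw [isec_sq H hFF hS hO hEb hL hx, isec_canon_parseval H hFF hS hO hEb hL hx hK, h4]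
  push_cast
  ring

end bundles

end Vale.Agent.P267.H283
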