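import Vale.Agent.P267.H283.Facts2
import Vale.Agent.P267.H399.LBCurv
import Vale.Agent.P267.H662.KBCurv

/-!
# P267, block C: line bundles with nowhere vanishing sections have cohomologous curvatures
-/

set_option linter.unusedSectionVars false

open scoped Manifold ContDiff ComplexConjugate Topology
open Set Filter
open Vale.Agent.P267.FL Vale.Agent.P267.H158 Vale.Agent.P267.RR Vale.Agent.P267.H662

noncomputable section

namespace Vale.Agent.P267.BlockC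

variable {X : Type} [TopologicalSpace X] [ChartedSpace C2 X] [IsManifold 𝓘(ℂ, C2) ω X]
variable {ι : Type} [Fintype ι] [DecidableEq ι] {ι' : Type} [Fintype ι'] [DecidableEq ι']

/-- `log |σ|² - log |σ'|²` -/
def lr (σ : X → EuclideanSpace ℂ ι) (σ' : X → EuclideanSpace ℂ ι') (x : X) : ℂ :=
  ((Real.log (‖σ x‖ ^ 2) - Real.log (‖σ' x‖ ^ 2) : ℝ) : ℂ)

theorem loc0_lr {κ : ℤ} {σ : X → EuclideanSpace ℂ ι} {σ' : X → EuclideanSpace ℂ ι'}
    (h0 : ∀ x, σ x ≠ 0) (h0' : ∀ x, σ' x ≠ 0) {e : Ch X} (he : e ∈ atlas C2 X) {z : C2}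
    (hz : z ∈ e.target) :
    loc0 0 e (lr σ σ') z = lgn (loc0 κ e σ) z - lgn (loc0 κ e σ') z := by
  have hd : ‖(jac e (e.symm z)).det ^ κ‖ ^ 2 ≠ 0 :=
    pow_ne_zero 2 (norm_ne_zero_iff.2 (zpow_ne_zero _ (jac_det_ne_zero he (e.map_target hz))))
  have h1 : ‖σ (e.symm z)‖ ^ 2 ≠ 0 := pow_ne_zero 2 (norm_ne_zero_iff.2 (h0 _))
  have h2 : ‖σ' (e.symm z)‖ ^ 2 ≠ 0 := pow_ne_zero 2 (norm_ne_zero_iff.2 (h0' _))
  rw [LB.loc0_zero]
  simp only [Function.comp, lr, lgn, loc0, norm_smul, mul_pow]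
  rw [Real.log_mul hd h1, Real.log_mul hd h2]
  push_cast
  ring

theorem reg0_lr {κ : ℤ} {σ : X → EuclideanSpace ℂ ι} {σ' : X → EuclideanSpace ℂ ι'}
    (hσ : Reg0 ∞ κ σ) (hσ' : Reg0 ∞ κ σ') (h0 : ∀ x, σ x ≠ 0) (h0' : ∀ x, σ' x ≠ 0) :
    Reg0 ∞ 0 (lr σ σ') := by
  intro e he z hz
  have h1 : loc0 0 e (lr σ σ') =ᶠ[𝓝 z] fun y => lgn (loc0 κ e σ) y - lgn (loc0 κ e σ') y := by
    filter_upwards [e.open_target.mem_nhds hz] with y hy
    exact loc0_lr h0 h0' he hy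
  have hd : (jac e (e.symm z)).det ^ κ ≠ 0 :=
    zpow_ne_zero _ (jac_det_ne_zero he (e.map_target hz))
  refine (ContDiffAt.congr_of_eventuallyEq ?_ h1).contDiffWithinAt
  exact (contDiffAt_lgn (hσ.contDiffAt he hz) (smul_ne_zero hd (h0 _))).sub
    (contDiffAt_lgn (hσ'.contDiffAt he hz) (smul_ne_zero hd (h0' _)))

/-- `∂∂̄` of `log |σ|² - log |σ'|²` -/
theorem del1_lr {κ : ℤ} {σ : X → EuclideanSpace ℂ ι} {σ' : X → EuclideanSpace ℂ ι'}
    (hσ : Reg0 ∞ κ σ) (hσ' : Reg0 ∞ κ σ') (h0 : ∀ x, σ x ≠ 0) (h0' : ∀ x, σ' x ≠ 0) (x : X)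
    (k l : Fin 2) :
    del1 (dbar0 0 (lr σ σ')) x k l =
      dz k (dzb l (lgn (loc0 κ (chartAt C2 x) σ))) (chartAt C2 x x) -
        dz k (dzb l (lgn (loc0 κ (chartAt C2 x) σ'))) (chartAt C2 x x) := by
  set e := chartAt C2 x with he
  have hea : e ∈ atlas C2 X := chart_mem_atlas C2 x
  have hz : e x ∈ e.target := mem_chart_target C2 x
  have hsm : ∀ z ∈ e.target, ContDiffAt ℝ ∞ (lgn (loc0 κ e σ)) z ∧
      ContDiffAt ℝ ∞ (lgn (loc0 κ e σ')) z := fun z hz => by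
    have hd : (jac e (e.symm z)).det ^ κ ≠ 0 :=
      zpow_ne_zero _ (jac_det_ne_zero hea (e.map_target hz))
    exact ⟨contDiffAt_lgn (hσ.contDiffAt hea hz) (smul_ne_zero hd (h0 _)),
      contDiffAt_lgn (hσ'.contDiffAt hea hz) (smul_ne_zero hd (h0' _))⟩
  have h2 : (fun z => loc1 0 e (dbar0 0 (lr σ σ')) z l) =ᶠ[𝓝 (e x)]
      fun z => dzb l (lgn (loc0 κ e σ)) z - dzb l (lgn (loc0 κ e σ')) z := by
    filter_upwards [e.open_target.mem_nhds hz] with z hz'
    have h3 : loc0 0 e (lr σ σ') =ᶠ[𝓝 z] fun y => lgn (loc0 κ e σ) y - lgn (loc0 κ e σ') y := by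
      filter_upwards [e.open_target.mem_nhds hz'] with y hy
      exact loc0_lr h0 h0' hea hy
    obtain ⟨g1, g2⟩ := hsm z hz'
    have g3 := g1.differentiableAt (by simp)
    have g4 := g2.differentiableAt (by simp)
    rw [loc1_dbar0 hea hz' ((g3.sub g4).congr_of_eventuallyEq h3), dzb_congr h3, dzb_sub g3 g4]
  obtain ⟨g1, g2⟩ := hsm _ hz
  have g3 : DifferentiableAt ℝ (dzb l (lgn (loc0 κ e σ))) (e x) :=
    (contDiffAt_dzb (m := 1) (g1.of_le two_le_inf) (by norm_num) l).differentiableAt (by norm_num)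
  have g4 : DifferentiableAt ℝ (dzb l (lgn (loc0 κ e σ'))) (e x) :=
    (contDiffAt_dzb (m := 1) (g2.of_le two_le_inf) (by norm_num) l).differentiableAt (by norm_num)
  change dz k (fun z => loc1 0 e (dbar0 0 (lr σ σ')) z l) (e x) = _
  rw [dz_congr h2, dz_sub g3 g4]

theorem del10_zero : del10 (0 : X → Fin 2 → ℂ) = 0 := by
  have := H469.del10_smul (X := X) (H469.S10 X).zero_mem 0
  simpa using this

theorem dbar10_zero : dbar10 (0 : X → Fin 2 → ℂ) = 0 := by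
  have := H469.dbar10_smul (X := X) (H469.S10 X).zero_mem 0
  simpa using this

/-- two line bundles with nowhere vanishing sections of `K^κ ⊗ L`, `K^κ ⊗ L'` have cohomologous
curvatures -/
theorem exact_curv_sub (L : LB X ι) (L' : LB X ι') {κ : ℤ} {σ : X → EuclideanSpace ℂ ι}
    {σ' : X → EuclideanSpace ℂ ι'} (hσ : Reg0 ∞ κ σ) (hσ' : Reg0 ∞ κ σ') (hs : L.Sec σ)
    (hs' : L'.Sec σ') (h0 : ∀ x, σ x ≠ 0) (h0' : ∀ x, σ' x ≠ 0) :
    ExactTwo (L.curv - L'.curv) := by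
  set u := lr σ σ' with hu
  have hur : Reg0 ∞ 0 u := reg0_lr hσ hσ' h0 h0'
  set a := conn κ σ with ha
  set a' := conn κ σ' with ha'
  have hra : Reg1 ∞ 0 a := reg1_conn hσ h0
  have hra' : Reg1 ∞ 0 a' := reg1_conn hσ' h0'
  have hneg : ∀ b : X → Fin 2 → ℂ, Reg1 ∞ 0 b → Reg10 ∞ fun y i => -conj (b y i) := fun b hb => by
    have h1 := (H469.S10 X).smul_mem (-1) (H469.r1cj hb)
    have h2 : (-1 : ℂ) • H469.cj1 b = fun y i => -conj (b y i) := by
      funext y i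
      simp [H469.cj1]
    rw [h2] at h1
    exact h1
  set A : OneF X := ⟨fun y i => -conj (a y i), a⟩ with hA
  set A' : OneF X := ⟨fun y i => -conj (a' y i), a'⟩ with hA'
  have hAs : A.Smooth := ⟨hneg a hra, hra⟩
  have hAs' : A'.Smooth := ⟨hneg a' hra', hra'⟩
  set B : OneF X := ⟨0, dbar0 0 u⟩ with hB
  have hBs : B.Smooth := ⟨(H469.S10 X).zero_mem, hur.dbar infty_add_one_le⟩
  have hc : L.chern a = L.curv + A.d := rfl
  have hc' : L'.chern a' = L'.curv + A'.d := rfl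
  have hsec : ∀ x, ∀ᶠ y in 𝓝 x, ∀ i, L.db0 a κ σ y i = 0 := fun x =>
    Eventually.of_forall fun y i => db0_conn L (hs y) (h0 y) i
  have hsec' : ∀ x, ∀ᶠ y in 𝓝 x, ∀ i, L'.db0 a' κ σ' y i = 0 := fun x =>
    Eventually.of_forall fun y i => db0_conn L' (hs' y) (h0' y) i
  have hd : L.chern a + B.d = L'.chern a' := by
    apply TwoF.ext
    · funext x
      change (L.chern a).f20 x + del10 0 x = (L'.chern a').f20 x
      rw [(nvSec_of_reg hσ hs h0 x).chern20 (hsec x), (nvSec_of_reg hσ' hs' h0' x).chern20 (hsec' x),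
        del10_zero, Pi.zero_apply, add_zero]
    · funext x
      ext k l
      change (L.chern a).f11 x k l + (del1 (dbar0 0 u) x k l + dbar10 0 x k l) =
        (L'.chern a').f11 x k l
      rw [(nvSec_of_reg hσ hs h0 x).chern11 (hsec x), (nvSec_of_reg hσ' hs' h0' x).chern11 (hsec' x),
        dbar10_zero, hu, del1_lr hσ hσ' h0 h0' x k l, Pi.zero_apply, Matrix.zero_apply]
      ring
    · funext x
      change (L.chern a).f02 x + dbar1 0 (dbar0 0 u) x = (L'.chern a').f02 x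
      rw [(nvSec_of_reg hσ hs h0 x).chern02 (hsec x), (nvSec_of_reg hσ' hs' h0' x).chern02 (hsec' x),
        dbar1_dbar0 ((hur.at x).of_le two_le_inf), add_zero]
  have h1 : ExactTwo (A'.d - A.d - B.d) :=
    exact_sub (exact_sub ⟨A', hAs', rfl⟩ ⟨A, hAs, rfl⟩) ⟨B, hBs, rfl⟩
  have h2 : A'.d - A.d - B.d = L.curv - L'.curv := by
    rw [hc, hc'] at hd
    have h3 : A'.d = L.curv + A.d + B.d - L'.curv := by rw [hd]; abel
    rw [h3]
    abel
  rwa [h2] at h1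

/-- the curvature facts -/
theorem curvThm : CurvThm := fun M _ _ _ _ =>
  { smooth := fun L => L.L.curv_smooth
    closed := fun L => L.L.curv_closed
    real := fun L x => by
      refine ⟨?_, fun i j => ?_⟩
      · change Complex.I * L.L.F20 x = conj (Complex.I * L.L.F02 x)
        rw [L.L.F20_eq_neg_conj, map_mul, Complex.conj_I]
        ring
      · change Complex.I * L.L.F11 x j i = -conj (Complex.I * L.L.F11 x i j)
        rw [L.L.F11_swap, map_mul, Complex.conj_I]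
        ring
    canon := fun K K' ⟨_, h1, h2, h3⟩ ⟨_, h1', h2', h3'⟩ =>
      exact_curv_sub K.L K'.L h1 h1' h2 h2' h3 h3' }

end Vale.Agent.P267.BlockC
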