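import Vale.Agent.P267.H283.Final
import Vale.Agent.P267.H994.Exist
import Vale.Agent.P267.H82.LiftThm

/-!
# P267, block C: the final theorem
-/

noncomputable section

namespace Vale.Agent.P267.H283

/-- **Block C.** -/
theorem blockC : Vale.Agent.P267.BlockC.Thm :=
  BlockC.thm_of_unimod_lift H994.unimod H82.liftThm

end Vale.Agent.P267.H283
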