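import Vale.Agent.P267.H283.BlockC
import Vale.Agent.P267.H283.DiagBasis

/-!
# P267, block C: from unimodularity and Riemann-Roch to the diagonal basis
-/

set_option linter.unusedSectionVars false

open scoped Manifold ContDiff ComplexConjugate
open Set Matrix
open Vale.Agent.P267.FL Vale.Agent.P267.H158 Vale.Agent.P267.RR

noncomputable section

namespace Vale.Agent.P267.BlockC

/-- The calculus facts used on a closed surface. -/
structure FormFacts (Y : Type) [TopologicalSpace Y] [ChartedSpace C2 Y] : Prop where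
  curv_smooth : ∀ L : ALB Y, L.L.curv.Smooth
  curv_closed : ∀ L : ALB Y, L.L.curv.Closed
  curv_real : ∀ L : ALB Y, (Complex.I • L.L.curv).Real
  smooth_d : ∀ A : OneF Y, A.Smooth → A.d.Smooth
  smooth_add : ∀ F G : TwoF Y, F.Smooth → G.Smooth → (F + G).Smooth
  smooth_smul : ∀ (c : ℂ) (F : TwoF Y), F.Smooth → (c • F).Smooth
  closed_smul : ∀ (c : ℂ) (F : TwoF Y), F.Smooth → F.Closed → (c • F).Closed
  pair_add : ∀ F F' G : TwoF Y, F.Smooth → F'.Smooth → G.Smooth →
    pair (F + F') G = pair F G + pair F' G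
  pair_smul : ∀ (c : ℂ) (F G : TwoF Y), F.Smooth → G.Smooth → pair (c • F) G = c * pair F G
  /-- Stokes -/
  pair_d : ∀ (A : OneF Y) (G : TwoF Y), A.Smooth → G.Smooth → G.Closed → pair A.d G = 0
  exact_sub : ∀ F G : TwoF Y, ExactTwo F → ExactTwo G → ExactTwo (F - G)
  exact_smul : ∀ (c : ℂ) (F : TwoF Y), ExactTwo F → ExactTwo (c • F)
  canon : ∀ K K' : ALB Y, IsCanon K.L → IsCanon K'.L → ExactTwo (K.L.curv - K'.L.curv)
  exists_canon : ∃ K : ALB Y, IsCanon K.L

variable {Y : Type} [TopologicalSpace Y] [ChartedSpace C2 Y]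

theorem wedge_comm (F G : TwoF Y) : F.wedge G = G.wedge F := by
  funext x
  simp only [TwoF.wedge]
  ring

theorem pair_comm (F G : TwoF Y) : pair F G = pair G F := by
  rw [pair, pair, wedge_comm]

theorem isec_eq {ι ι' : Type} [Fintype ι] [DecidableEq ι] [Fintype ι'] [DecidableEq ι']
    (L : LB Y ι) (L' : LB Y ι') :
    isec L L' = -(1 / (4 * (Real.pi : ℂ) ^ 2)) * pair L.curv L'.curv := rfl

theorem isec_comm {ι ι' : Type} [Fintype ι] [DecidableEq ι] [Fintype ι'] [DecidableEq ι']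
    (L : LB Y ι) (L' : LB Y ι') : isec L L' = isec L' L := by
  rw [isec_eq, isec_eq, pair_comm]

namespace FormFacts

variable (H : FormFacts Y)
include H

theorem exactTwo_zero : ExactTwo (0 : TwoF Y) := by
  obtain ⟨K, hK⟩ := H.exists_canon
  have := H.canon K K hK hK
  rwa [sub_self] at this

theorem pair_of_exact {F G : TwoF Y} (hF : ExactTwo F) (hG : G.Smooth) (hG' : G.Closed) :
    pair F G = 0 := by
  obtain ⟨A, hA, rfl⟩ := hF
  exact H.pair_d A G hA hG hG'

theorem smooth_sum {n : ℕ} (t : Fin n → ℂ) (F : Fin n → TwoF Y) (hF : ∀ i, (F i).Smooth)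
    (s : Finset (Fin n)) : (∑ i ∈ s, t i • F i).Smooth := by
  classical
  obtain ⟨K, hK⟩ := H.exists_canon
  induction s using Finset.induction_on with
  | empty =>
    rw [Finset.sum_empty]
    have := H.smooth_smul 0 _ (H.curv_smooth K)
    rwa [zero_smul] at this
  | insert a s ha ih =>
    rw [Finset.sum_insert ha]
    exact H.smooth_add _ _ (H.smooth_smul _ _ (hF a)) ih

theorem pair_sum {n : ℕ} (t : Fin n → ℂ) (F : Fin n → TwoF Y) (hF : ∀ i, (F i).Smooth)
    {G : TwoF Y} (hG : G.Smooth) (s : Finset (Fin n)) :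
    pair (∑ i ∈ s, t i • F i) G = ∑ i ∈ s, t i * pair (F i) G := by
  classical
  obtain ⟨K, hK⟩ := H.exists_canon
  induction s using Finset.induction_on with
  | empty =>
    rw [Finset.sum_empty, Finset.sum_empty]
    have := H.pair_smul 0 _ G (H.curv_smooth K) hG
    rwa [zero_smul, zero_mul] at this
  | insert a s ha ih =>
    rw [Finset.sum_insert ha, Finset.sum_insert ha,
      H.pair_add _ _ _ (H.smooth_smul _ _ (hF a)) (H.smooth_sum t F hF s) hG, ih,
      H.pair_smul _ _ _ (hF a) hG]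

/-- pairing of a form which is cohomologous to a combination -/
theorem pair_of_exact_sub {n : ℕ} {F : TwoF Y} (t : Fin n → ℂ) {E : Fin n → ALB Y}
    (hF : ExactTwo (F - ∑ i, t i • (E i).L.curv)) {G : TwoF Y} (hG : G.Smooth) (hG' : G.Closed) :
    pair F G = ∑ i, t i * pair (E i).L.curv G := by
  obtain ⟨A, hA, hAF⟩ := hF
  have h1 : F = A.d + ∑ i, t i • (E i).L.curv := by rw [hAF]; abel
  rw [h1, H.pair_add _ _ _ (H.smooth_d A hA) (H.smooth_sum t _ (fun i => H.curv_smooth _) _) hG,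
    H.pair_d A G hA hG hG', zero_add, H.pair_sum t _ (fun i => H.curv_smooth _) hG]

theorem isec_of_exact_sub {n : ℕ} {L : ALB Y} (t : Fin n → ℂ) {E : Fin n → ALB Y}
    (hL : ExactTwo (L.L.curv - ∑ i, t i • (E i).L.curv)) (M : ALB Y) :
    isec L.L M.L = ∑ i, t i * isec (E i).L M.L := by
  rw [isec_eq, H.pair_of_exact_sub t hL (H.curv_smooth M) (H.curv_closed M), Finset.mul_sum]
  exact Finset.sum_congr rfl fun i _ => by rw [isec_eq]; ring

theorem isec_canon {K K' : ALB Y} (hK : IsCanon K.L) (hK' : IsCanon K'.L) (M : ALB Y) :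
    isec K.L M.L = isec K'.L M.L := by
  have h1 : ExactTwo (K.L.curv - ∑ i : Fin 1, (1 : ℂ) • ((fun _ => K') i).L.curv) := by
    simpa using H.canon K K' hK hK'
  have := H.isec_of_exact_sub (fun _ => 1) h1 M
  simpa using this

/-- **Unimodularity and Riemann-Roch give the diagonal basis.** -/
theorem elk {N : ℕ} (hS : SurfIn Y N) (hU : Unimod Y N) : Elk Y N := by
  classical
  obtain ⟨E, G, hG, hdet, hspan, -, hLB⟩ := hU
  choose Lx hLx using hLB
  obtain ⟨K, hK⟩ := H.exists_canon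
  -- coordinates of `K`
  obtain ⟨t, ht, -⟩ := hspan K.L.curv (H.curv_smooth K) (H.curv_closed K)
  have hsym : ∀ i j, G i j = G j i := by
    intro i j
    have := isec_comm (E i).L (E j).L
    rw [hG, hG] at this
    exact_mod_cast this
  have hxy : ∀ x y : Fin N → ℤ, isec (Lx x).L (Lx y).L = ((x ⬝ᵥ G *ᵥ y : ℤ) : ℂ) := by
    intro x y
    rw [H.isec_of_exact_sub _ (hLx x)]
    simp only [dotProduct, mulVec]
    push_cast
    refine Finset.sum_congr rfl fun i _ => ?_
    congr 1
    rw [isec_comm, H.isec_of_exact_sub _ (hLx y)]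
    refine Finset.sum_congr rfl fun j _ => ?_
    rw [hG, hsym]
    ring
  set κ : Fin N → ℂ := fun i => isec K.L (E i).L with hκdef
  have hKx : ∀ x : Fin N → ℤ, isec K.L (Lx x).L = ∑ i, (x i : ℂ) * κ i := by
    intro x
    rw [isec_comm, H.isec_of_exact_sub _ (hLx x)]
    exact Finset.sum_congr rfl fun i _ => by rw [hκdef, isec_comm]
  have hκ : ∀ i, κ i = ∑ j, (G i j : ℂ) * t j := by
    intro i
    rw [hκdef]
    simp only
    rw [H.isec_of_exact_sub _ ht]
    refine Finset.sum_congr rfl fun j _ => ?_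
    rw [hG, hsym]
    ring
  have hKK : ∑ i, t i * κ i = -(N : ℂ) := by
    rw [← hS.kk K hK, H.isec_of_exact_sub _ ht]
    exact Finset.sum_congr rfl fun i _ => by rw [hκdef, isec_comm]
  have hneg : ∀ x : Fin N → ℤ, x ≠ 0 → x ⬝ᵥ G *ᵥ x < 0 := by
    intro x hx
    set F : TwoF Y := (Complex.I / (2 * Real.pi)) • (Lx x).L.curv with hF
    have hpi : (Real.pi : ℂ) ≠ 0 := by exact_mod_cast Real.pi_ne_zero
    have hFr : F = ((1 / (2 * Real.pi) : ℝ) : ℂ) • Complex.I • (Lx x).L.curv := by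
      rw [hF, smul_smul]
      congr 1
      push_cast
      ring
    have hreal : F.Real := by
      rw [hFr]
      intro p
      obtain ⟨h1, h2⟩ := H.curv_real (Lx x) p
      refine ⟨?_, fun i j => ?_⟩
      · rw [TwoF.f20_smul, TwoF.f02_smul, Pi.smul_apply, Pi.smul_apply, h1, smul_eq_mul,
          smul_eq_mul, map_mul, Complex.conj_ofReal]
      · rw [TwoF.f11_smul, Pi.smul_apply, Matrix.smul_apply, Matrix.smul_apply, h2, smul_eq_mul,
          smul_eq_mul, map_mul, Complex.conj_ofReal, mul_neg]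
    have hsm : F.Smooth := H.smooth_smul _ _ (H.curv_smooth _)
    have hcl : F.Closed := H.closed_smul _ _ (H.curv_smooth _) (H.curv_closed _)
    have hval : pair F F = ((x ⬝ᵥ G *ᵥ x : ℤ) : ℂ) := by
      rw [← hxy, isec_eq]
      conv_lhs => rw [hF]
      rw [H.pair_smul _ _ _ (H.curv_smooth _) hsm, pair_comm, hF,
        H.pair_smul _ _ _ (H.curv_smooth _) (H.curv_smooth _)]
      rw [← mul_assoc]
      congr 1
      field_simp
      rw [Complex.I_sq]
      ring
    obtain ⟨h1, h2⟩ := hS.neg F hsm hreal hcl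
    rw [hval, Complex.intCast_re] at h1 h2
    have h3 : x ⬝ᵥ G *ᵥ x ≤ 0 := by exact_mod_cast h1
    refine lt_of_le_of_ne h3 fun h4 => hx ?_
    have h5 : ExactTwo F := h2 (by exact_mod_cast h4)
    have h6 : ExactTwo (Lx x).L.curv := by
      have := H.exact_smul ((2 * Real.pi) / Complex.I) F h5
      rw [hF, smul_smul] at this
      have h7 : (2 * (Real.pi : ℂ)) / Complex.I * (Complex.I / (2 * Real.pi)) = 1 := by
        field_simp
      rwa [h7, one_smul] at this
    obtain ⟨u, hu, huniq⟩ := hspan (Lx x).L.curv (H.curv_smooth _) (H.curv_closed _)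
    have h8 : (fun i => (x i : ℂ)) = u := huniq _ (hLx x)
    have h9 : (fun _ => (0 : ℂ)) = u := huniq _ (by simpa using h6)
    rw [← h9] at h8
    funext i
    have := congrFun h8 i
    simpa using this
  obtain ⟨b, hb1, hb2⟩ := diag_basis G hsym hdet hneg t κ hκ (fun x => by
    obtain ⟨k, hk⟩ := hS.rr (Lx x) K hK
    refine ⟨k, ?_⟩
    rw [← hk, hxy, hKx]) hKK
  refine ⟨fun i => Lx (b i), fun i j => ?_, fun i K' hK' => ?_⟩
  · rw [hxy, hb1]
    split_ifs <;> simp
  · rw [H.isec_canon hK' hK, hKx, hb2]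

end FormFacts

end Vale.Agent.P267.BlockC
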