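import Vale.Agent.P267.H283.Out
import Vale.Agent.P267.H469.Inst
import Vale.Agent.P267.H533.IntPos
import Vale.Agent.P267.H857.Bridge4
import Vale.Agent.P267.H928.Int.FLWedge

/-!
# P267, block C: calculus facts (1): linearity, Stokes
-/

set_option linter.unusedSectionVars false

open scoped Manifold ContDiff ComplexConjugate
open Set
open Vale.Agent.P267.FL

noncomputable section

namespace Vale.Agent.P267.BlockC

section general

variable {M : Type*} [TopologicalSpace M] [ChartedSpace C2 M]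

theorem real_wedge {F G : TwoF M} (hF : F.Real) (hG : G.Real) (x : M) :
    conj (F.wedge G x) = F.wedge G x := by
  obtain ⟨h1, h2⟩ := hF x
  obtain ⟨h3, h4⟩ := hG x
  have a : ∀ i j, conj (F.f11 x i j) = -F.f11 x j i := fun i j => by rw [h2 i j, neg_neg]
  have b : ∀ i j, conj (G.f11 x i j) = -G.f11 x j i := fun i j => by rw [h4 i j, neg_neg]
  have c1 : conj (F.f20 x) = F.f02 x := by rw [h1, Complex.conj_conj]
  have c2 : conj (G.f20 x) = G.f02 x := by rw [h3, Complex.conj_conj]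
  simp only [TwoF.wedge, map_sub, map_add, map_mul, a, b, c1, c2, ← h1, ← h3]
  ring

theorem wedge_add_left (F F' G : TwoF M) :
    (F + F').wedge G = fun x => F.wedge G x + F'.wedge G x := by
  funext x
  simp only [TwoF.wedge, TwoF.f20_add, TwoF.f11_add, TwoF.f02_add, Pi.add_apply, Matrix.add_apply]
  ring

theorem wedge_smul_left (c : ℂ) (F G : TwoF M) :
    (c • F).wedge G = fun x => c * F.wedge G x := by
  funext x
  simp only [TwoF.wedge, TwoF.f20_smul, TwoF.f11_smul, TwoF.f02_smul, Pi.smul_apply,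
    Matrix.smul_apply, smul_eq_mul]
  ring

theorem wedge_eq_zero_left {F G : TwoF M} {x : M}
    (h : F.f20 x = 0 ∧ F.f11 x = 0 ∧ F.f02 x = 0) : F.wedge G x = 0 := by
  simp [TwoF.wedge, h.1, h.2.1, h.2.2]

variable [IsManifold 𝓘(ℂ, C2) ω M]

theorem smooth_zero : (0 : TwoF M).Smooth :=
  ⟨(H469.S20 M).zero_mem, (H469.S11 M).zero_mem, (H469.S02 M).zero_mem⟩

theorem smooth_add {F G : TwoF M} (hF : F.Smooth) (hG : G.Smooth) : (F + G).Smooth :=
  ⟨(H469.S20 M).add_mem hF.s20 hG.s20, (H469.S11 M).add_mem hF.s11 hG.s11,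
    (H469.S02 M).add_mem hF.s02 hG.s02⟩

theorem smooth_smul (c : ℂ) {F : TwoF M} (hF : F.Smooth) : (c • F).Smooth :=
  ⟨(H469.S20 M).smul_mem c hF.s20, (H469.S11 M).smul_mem c hF.s11,
    (H469.S02 M).smul_mem c hF.s02⟩

theorem osmooth_zero : (0 : OneF M).Smooth :=
  ⟨(H469.S10 M).zero_mem, (H469.S01 M).zero_mem⟩

theorem osmooth_add {A B : OneF M} (hA : A.Smooth) (hB : B.Smooth) : (A + B).Smooth :=
  ⟨(H469.S10 M).add_mem hA.s10 hB.s10, (H469.S01 M).add_mem hA.s01 hB.s01⟩

theorem osmooth_smul (c : ℂ) {A : OneF M} (hA : A.Smooth) : (c • A).Smooth :=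
  ⟨(H469.S10 M).smul_mem c hA.s10, (H469.S01 M).smul_mem c hA.s01⟩

theorem d_add {A B : OneF M} (hA : A.Smooth) (hB : B.Smooth) : (A + B).d = A.d + B.d := by
  apply TwoF.ext
  · exact H469.del10_add hA.s10 hB.s10
  · change del1 (A.f01 + B.f01) + dbar10 (A.f10 + B.f10) =
      (del1 A.f01 + dbar10 A.f10) + (del1 B.f01 + dbar10 B.f10)
    rw [H469.del1_add hA.s01 hB.s01, H469.dbar10_add hA.s10 hB.s10]
    abel
  · exact H469.dbar1_add hA.s01 hB.s01

theorem d_smul (c : ℂ) {A : OneF M} (hA : A.Smooth) : (c • A).d = c • A.d := by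
  apply TwoF.ext
  · exact H469.del10_smul hA.s10 c
  · change del1 (c • A.f01) + dbar10 (c • A.f10) = c • (del1 A.f01 + dbar10 A.f10)
    rw [H469.del1_smul hA.s01, H469.dbar10_smul hA.s10, smul_add]
  · exact H469.dbar1_smul hA.s01 c

theorem closed_iff (F : TwoF M) : F.Closed ↔ F.d21 = 0 ∧ F.d12 = 0 :=
  ⟨fun h => ⟨funext fun x => funext fun j => h.1 x j, funext fun x => funext fun j => h.2 x j⟩,
    fun h => ⟨fun x j => congrFun (congrFun h.1 x) j, fun x j => congrFun (congrFun h.2 x) j⟩⟩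

theorem closed_add {F G : TwoF M} (hF : F.Smooth) (hG : G.Smooth) (hF' : F.Closed)
    (hG' : G.Closed) : (F + G).Closed := by
  rw [closed_iff] at *
  constructor
  · rw [H469.d21_eq']
    rw [TwoF.f20_add, TwoF.f11_add, H469.dbar0_add hF.s20 hG.s20, H469.del11_add hF.s11 hG.s11]
    have h1 := hF'.1
    have h2 := hG'.1
    rw [H469.d21_eq'] at h1 h2
    rw [add_add_add_comm, h1, h2, add_zero]
  · rw [H469.d12_eq]
    rw [TwoF.f02_add, TwoF.f11_add, H469.del02_add hF.s02 hG.s02, H469.dbar11_add hF.s11 hG.s11]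
    have h1 := hF'.2
    have h2 := hG'.2
    rw [H469.d12_eq] at h1 h2
    rw [add_add_add_comm, h1, h2, add_zero]

theorem closed_smul (c : ℂ) {F : TwoF M} (hF : F.Smooth) (hF' : F.Closed) : (c • F).Closed := by
  rw [closed_iff] at *
  constructor
  · rw [H469.d21_eq', TwoF.f20_smul, TwoF.f11_smul, H469.dbar0_smul hF.s20,
      H469.del11_smul hF.s11]
    have h1 := hF'.1
    rw [H469.d21_eq'] at h1
    rw [← smul_add, h1, smul_zero]
  · rw [H469.d12_eq, TwoF.f02_smul, TwoF.f11_smul, H469.del02_smul hF.s02,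
      H469.dbar11_smul hF.s11]
    have h1 := hF'.2
    rw [H469.d12_eq] at h1
    rw [← smul_add, h1, smul_zero]

theorem closed_zero : (0 : TwoF M).Closed := by
  have h := H857.closed_d (X := M) osmooth_zero
  have h1 : (0 : OneF M).d = (0 : ℂ) • (0 : OneF M).d := by
    rw [← d_smul 0 osmooth_zero, zero_smul]
  rw [h1, zero_smul] at h
  exact h

theorem exact_add {F G : TwoF M} (hF : ExactTwo F) (hG : ExactTwo G) : ExactTwo (F + G) := by
  obtain ⟨A, hA, rfl⟩ := hF
  obtain ⟨B, hB, rfl⟩ := hG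
  exact ⟨A + B, osmooth_add hA hB, d_add hA hB⟩

theorem exact_smul (c : ℂ) {F : TwoF M} (hF : ExactTwo F) : ExactTwo (c • F) := by
  obtain ⟨A, hA, rfl⟩ := hF
  exact ⟨c • A, osmooth_smul c hA, d_smul c hA⟩

theorem exact_sub {F G : TwoF M} (hF : ExactTwo F) (hG : ExactTwo G) : ExactTwo (F - G) := by
  have h1 := exact_add hF (exact_smul (-1) hG)
  rwa [neg_one_smul, ← sub_eq_add_neg] at h1

theorem locInt_wedge {F G : TwoF M} (hF : F.Smooth) (hG : G.Smooth) :
    H533.LocInt (F.wedge G) := by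
  have h1 : Reg2 ∞ 1 (F.wedge G) := H469.wedge_mem hF hG
  exact h1.locInt

variable [T2Space M]

theorem pair_add {F F' G : TwoF M} (hF : F.Smooth) (hF' : F'.Smooth) (hG : G.Smooth)
    (hc : HasCompactSupport (F.wedge G)) (hc' : HasCompactSupport (F'.wedge G)) :
    pair (F + F') G = pair F G + pair F' G := by
  rw [pair, wedge_add_left, H533.intX_add (locInt_wedge hF hG) hc (locInt_wedge hF' hG) hc']
  rfl

theorem pair_smul (c : ℂ) {F G : TwoF M} (hF : F.Smooth) (hG : G.Smooth)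
    (hc : HasCompactSupport (F.wedge G)) : pair (c • F) G = c * pair F G := by
  rw [pair, wedge_smul_left, H533.intX_const_mul (locInt_wedge hF hG) hc]
  rfl

theorem pair_real {F G : TwoF M} (hF : F.Smooth) (hG : G.Smooth) (hF' : F.Real) (hG' : G.Real)
    (hc : HasCompactSupport (F.wedge G)) : (pair F G).im = 0 :=
  H533.intX_im_eq_zero (locInt_wedge hF hG) hc (real_wedge hF' hG')

end general

end Vale.Agent.P267.BlockC
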