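import Vale.Agent.P267.H283.Canon
import Vale.Agent.P267.H622.CovFacts

/-!
# P267, block C: assembly
-/

namespace Vale.Agent.P267.BlockC

/-- Block C from unimodularity and the lift. -/
theorem thm_of_unimod_lift (hU : UnimodThm') (hL : LiftThm) : Thm :=
  thm_of hU hL curvThm XT.covMapThm

end Vale.Agent.P267.BlockC
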