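import Vale.Agent.P267.H283.Vc

/-!
# P267, block C: from the lift and the diagonal basis to the final output
-/

set_option linter.unusedSectionVars false

open scoped Manifold ContDiff ComplexConjugate
open Set
open Vale.Agent.P267.FL Vale.Agent.P267.H158 Vale.Agent.P267.RR Vale.Agent.P267.H379

noncomputable section

namespace Vale.Agent.P267.BlockC

variable {X : Type} [TopologicalSpace X] [ChartedSpace C2 X] {h : C(X, UnitAddCircle)}

namespace CovFacts

variable (H : CovFacts h)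

/-- closed real smooth two-forms with compact support -/
def Vc : Submodule ℝ (TwoF (Cov h)) where
  carrier := {F | F.Smooth ∧ F.Closed ∧ F.Real ∧ CS F}
  zero_mem' := ⟨H.smooth_zero, H.closed_zero, fun x => by simp, CS.zero⟩
  add_mem' := fun {F G} hF hG => ⟨H.smooth_add F G hF.1 hG.1,
    H.closed_add F G hF.1 hG.1 hF.2.1 hG.2.1, TwoF.real_add hF.2.2.1 hG.2.2.1,
    hF.2.2.2.add hG.2.2.2⟩
  smul_mem' := fun c F hF => ⟨H.smooth_smul c F hF.1, H.closed_smul c F hF.1 hF.2.1,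
    TwoF.real_smul hF.2.2.1 c, hF.2.2.2.smul c⟩

theorem mem_Vc {F : TwoF (Cov h)} : F ∈ H.Vc ↔ F.Smooth ∧ F.Closed ∧ F.Real ∧ CS F := Iff.rfl

/-- the intersection form -/
def Q : LinearMap.BilinForm ℝ H.Vc :=
  LinearMap.mk₂ ℝ (fun F G => (pair F.1 G.1).re)
    (fun F F' G => by
      have := H.pair_add F.1 F'.1 G.1 F.2.1 F'.2.1 G.2.1 F.2.2.2.2 F'.2.2.2.2
      rw [Submodule.coe_add, this, Complex.add_re])
    (fun c F G => by
      have := H.pair_smul c F.1 G.1 F.2.1 G.2.1 F.2.2.2.2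
      rw [Submodule.coe_smul, smulR_eq, this, Complex.re_ofReal_mul, smul_eq_mul])
    (fun F G G' => by
      have := H.pair_add' F.1 G.1 G'.1 F.2.1 G.2.1 G'.2.1 F.2.2.2.2
      rw [Submodule.coe_add, this, Complex.add_re])
    (fun c F G => by
      have := H.pair_smul' c F.1 G.1 F.2.1 G.2.1 F.2.2.2.2
      rw [Submodule.coe_smul, smulR_eq, this, Complex.re_ofReal_mul, smul_eq_mul])

theorem Q_apply (F G : H.Vc) : H.Q F G = (pair F.1 G.1).re := rfl

theorem pair_eq_Q (F G : H.Vc) : pair F.1 G.1 = (H.Q F G : ℂ) := by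
  refine Complex.ext rfl ?_
  rw [H.pair_real F.1 G.1 F.2.1 G.2.1 F.2.2.2.1 G.2.2.2.1 F.2.2.2.2, Complex.ofReal_im]

/-- the translate -/
def sh (k : ℤ) : H.Vc →ₗ[ℝ] H.Vc where
  toFun F := ⟨shF k F.1, H.smooth_sh k _ F.2.1, H.closed_sh k _ F.2.1 F.2.2.1,
    real_sh F.2.2.2.1 k, F.2.2.2.2.sh k⟩
  map_add' _ _ := rfl
  map_smul' _ _ := rfl

/-- the generator of the deck group -/
def g : H.Vc ≃ₗ[ℝ] H.Vc :=
  LinearEquiv.ofLinearMap (H.sh 1) (H.sh (-1))
    (by
      ext1 F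
      apply Subtype.ext
      change shF 1 (shF (-1) F.1) = F.1
      rw [shF_shF, add_neg_cancel, shF_zero])
    (by
      ext1 F
      apply Subtype.ext
      change shF (-1) (shF 1 F.1) = F.1
      rw [shF_shF, neg_add_cancel, shF_zero])

theorem g_apply (F : H.Vc) : (H.g F).1 = shF 1 F.1 := rfl

theorem g_zpow (k : ℤ) (F : H.Vc) : ((H.g ^ k) F).1 = shF k F.1 := by
  induction k using Int.induction_on with
  | zero => rw [zpow_zero, shF_zero]; rfl
  | succ n ih =>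
    rw [add_comm, zpow_add, zpow_one, LinearEquiv.mul_apply, g_apply, ih, shF_shF]
  | pred n ih =>
    have h1 : (H.g ^ (-(n : ℤ))) F = H.g ((H.g ^ (-(n : ℤ) - 1)) F) := by
      rw [← LinearEquiv.mul_apply, ← zpow_one_add]; congr 2; ring
    have h2 : shF (-1) ((H.g ^ (-(n : ℤ))) F).1 = ((H.g ^ (-(n : ℤ) - 1)) F).1 := by
      rw [h1, g_apply, shF_shF, neg_add_cancel, shF_zero]
    rw [← h2, ih, shF_shF]
    congr 1
    ring

theorem local_Q : Local H.Q H.g := by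
  intro F G
  obtain ⟨N, hN⟩ := F.2.2.2.2.pair_sh G.2.2.2.2
  refine (Set.finite_Icc (-(N : ℤ)) N).subset fun k hk => ?_
  by_contra hcon
  apply hk
  rw [Q_apply, g_zpow, hN k, Complex.zero_re]
  rw [Set.mem_Icc, not_and_or, not_le, not_le] at hcon
  rcases hcon with h1 | h1
  · have := neg_le_abs k
    linarith
  · have := le_abs_self k
    linarith

theorem Q_iso (F G : H.Vc) : H.Q (H.g F) (H.g G) = H.Q F G := by
  rw [Q_apply, Q_apply, g_apply, g_apply, H.pair_sh 1 _ _ F.2.1 G.2.1 F.2.2.2.2]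

theorem Q_symm (F G : H.Vc) : H.Q F G = H.Q G F := by
  rw [Q_apply, Q_apply]
  have : ∀ F G : TwoF (Cov h), pair F G = pair G F := fun F G => by
    have h1 : F.wedge G = G.wedge F := by
      funext x
      simp only [TwoF.wedge]
      ring
    rw [pair, pair, h1]
  rw [this]

/-- normalised curvature of a bundle which is trivial at both ends -/
def cl (L : ALB (Cov h)) (i₀ : L.ι) (R : ℝ) (hL : EndTriv h L i₀ R) : H.Vc :=
  ⟨(Complex.I / (2 * Real.pi)) • L.L.curv, H.smooth_smul _ _ (H.curv_smooth L),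
    H.closed_smul _ _ (H.curv_smooth L) (H.curv_closed L), by
      have h1 : (Complex.I / (2 * Real.pi)) • L.L.curv =
          ((1 / (2 * Real.pi) : ℝ) : ℂ) • Complex.I • L.L.curv := by
        rw [smul_smul]
        congr 1
        push_cast
        ring
      rw [h1]
      exact TwoF.real_smul (H.curv_real L) _, (H.curv_CS L i₀ R hL).smul _⟩

theorem cc_eq : (Complex.I / (2 * (Real.pi : ℂ))) * (Complex.I / (2 * Real.pi)) =
    -(1 / (4 * (Real.pi : ℂ) ^ 2)) := by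
  have hpi : (Real.pi : ℂ) ≠ 0 := by exact_mod_cast Real.pi_ne_zero
  field_simp
  rw [Complex.I_sq]
  norm_num

theorem wrapForm_eq {m : ℕ} (F G : H.Vc) :
    (wrapForm H.Q H.g m G F : ℂ) = ∑ᶠ k : ℤ, pair G.1 (shF (m * k) F.1) := by
  have h1 : ∀ k : ℤ, pair G.1 (shF (m * k) F.1) =
      ((H.Q G ((H.g ^ ((m : ℤ) * k)) F) : ℝ) : ℂ) := by
    intro k
    rw [← H.pair_eq_Q, g_zpow]
  rw [finsum_congr h1, wrapForm]
  by_cases hm : m = 0
  · subst hm
    by_cases hq : H.Q G F = 0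
    · simp [hq]
    · rw [finsum_of_infinite_support, finsum_of_infinite_support]
      · simp
      · refine Set.infinite_of_forall_exists_gt fun a => ⟨a + 1, ?_, by linarith⟩
        simpa using hq
      · refine Set.infinite_of_forall_exists_gt fun a => ⟨a + 1, ?_, by linarith⟩
        simpa using hq
  · have hfin := H.local_Q.wrap (Nat.pos_of_ne_zero hm) G F
    have := AddMonoidHom.map_finsum (Complex.ofRealHom : ℝ →+ ℂ) hfin
    exact this

/-- the isometry data `Hyp` of `H379` -/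
theorem hyp {n : ℕ} (hS : ∀ (m : ℕ) [NeZero m], SurfIn (CovM h m) (m * n))
    (hF : ∀ (m : ℕ) [NeZero m], FormFacts (CovM h m)) (κ₀ : TwoF (Cov h)) (hκs : κ₀.Smooth)
    (hκsh : shF 1 κ₀ = κ₀)
    (hκ : ∀ (m : ℕ) [NeZero m], ∃ K : ALB (CovM h m), ∀ F : H.Vc,
      pair F.1 κ₀ = Complex.I / (2 * Real.pi) * pair F.1 (pullM m K.L.curv))
    (Kap : H.Vc →ₗ[ℝ] ℝ) (hKap : ∀ F, Kap F = (pair F.1 κ₀).re) :
    Hyp H.Q H.g Kap 1 := by
  refine ⟨H.Q_symm, H.Q_iso, H.local_Q, ?_, one_pos, ?_, ?_⟩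
  · intro F
    rw [hKap, hKap, g_apply]
    conv_lhs => rw [← hκsh]
    rw [H.pair_sh 1 _ _ F.2.1 hκs F.2.2.2.2]
  · intro m hm _ F
    have _ : NeZero m := ⟨hm.ne'⟩
    obtain ⟨W, hW1, hW2, hW3, hW4, hW5⟩ := H.wrap m F.1 F.2.1 F.2.2.1 F.2.2.2.2
    have h1 : (wrapForm H.Q H.g m F F : ℂ) = pair W W := by
      rw [H.wrapForm_eq, ← hW5 F.1 F.2.1 F.2.2.2.2, hW4 W hW1]
    have h2 := ((hS m).neg W hW1 (hW3 F.2.2.2.1) hW2).1
    rw [← h1, Complex.ofReal_re] at h2
    exact h2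
  · intro m hm _ F h0
    have _ : NeZero m := ⟨hm.ne'⟩
    obtain ⟨W, hW1, hW2, hW3, hW4, hW5⟩ := H.wrap m F.1 F.2.1 F.2.2.1 F.2.2.2.2
    have h1 : (wrapForm H.Q H.g m F F : ℂ) = pair W W := by
      rw [H.wrapForm_eq, ← hW5 F.1 F.2.1 F.2.2.2.2, hW4 W hW1]
    have h2 := ((hS m).neg W hW1 (hW3 F.2.2.2.1) hW2).2
    rw [← h1, Complex.ofReal_re] at h2
    have h3 := h2 h0
    obtain ⟨K, hKA⟩ := hκ m
    rw [hKap, hKA, ← hW4 _ ((hF m).curv_smooth K),
      (hF m).pair_of_exact h3 ((hF m).curv_smooth K) ((hF m).curv_closed K), mul_zero,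
      Complex.zero_re]

/-- intersection numbers as values of `Q` -/
theorem isec_eq_Q (L L' : ALB (Cov h)) (i₀ : L.ι) (i₀' : L'.ι) (R R' : ℝ)
    (hL : EndTriv h L i₀ R) (hL' : EndTriv h L' i₀' R') :
    isec L.L L'.L = (H.Q (H.cl L i₀ R hL) (H.cl L' i₀' R' hL') : ℂ) := by
  rw [← pair_eq_Q]
  change _ = pair ((Complex.I / (2 * Real.pi)) • L.L.curv) ((Complex.I / (2 * Real.pi)) • L'.L.curv)
  rw [H.pair_smul _ _ _ (H.curv_smooth L) (H.smooth_smul _ _ (H.curv_smooth L'))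
      (H.curv_CS L i₀ R hL), H.pair_smul' _ _ _ (H.curv_smooth L) (H.curv_smooth L')
      (H.curv_CS L i₀ R hL), ← mul_assoc, cc_eq]
  rfl

/-- translates of `EndTriv` bundles -/
theorem endTriv_shift {L : ALB (Cov h)} {i₀ : L.ι} {R : ℝ} (hL : EndTriv h L i₀ R) {k : ℤ}
    {L' : LB (Cov h) L.ι} (hs : IsShift h k L.L L') :
    EndTriv h ⟨L.ι, L'⟩ i₀ (R + |(k : ℝ)|) := by
  intro x hx
  have h1 := hs (Cov.shift (-k) x)
  rw [Cov.shift_shift_neg] at h1
  rw [h1]
  apply hL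
  rw [Cov.f_shift]
  push_cast
  have := abs_sub_abs_le_abs_sub (Cov.f x) (k : ℝ)
  rw [← sub_eq_add_neg]
  linarith

theorem cl_shift {L : ALB (Cov h)} {i₀ : L.ι} {R R' : ℝ} (hL : EndTriv h L i₀ R) {k : ℤ}
    {L' : LB (Cov h) L.ι} (hs : IsShift h k L.L L') (hL' : EndTriv h ⟨L.ι, L'⟩ i₀ R') :
    H.cl ⟨L.ι, L'⟩ i₀ R' hL' = (H.g ^ k) (H.cl L i₀ R hL) := by
  apply Subtype.ext
  rw [g_zpow]
  change (Complex.I / (2 * Real.pi)) • L'.curv = shF k ((Complex.I / (2 * Real.pi)) • L.L.curv)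
  rw [shF_smul, H.curv_shift k L L' hs]

/-- the intersection number of periodic extensions -/
theorem isec_per {m : ℕ} [NeZero m] (hF : FormFacts (CovM h m)) {L M : ALB (Cov h)}
    {i₀ : L.ι} {j₀ : M.ι} {R R' : ℝ} (hL : EndTriv h L i₀ R) (hM : EndTriv h M j₀ R')
    {L' : LB (CovM h m) L.ι} {M' : LB (CovM h m) M.ι}
    (h1 : ∀ G : TwoF (CovM h m), G.Smooth → pair L'.curv G = pair L.L.curv (pullM m G))
    (h2 : ∀ G : TwoF (Cov h), G.Smooth → CS G →
        pair G (pullM m M'.curv) = ∑ᶠ k : ℤ, pair G (shF (m * k) M.L.curv)) :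
    isec L' M' = (wrapForm H.Q H.g m (H.cl L i₀ R hL) (H.cl M j₀ R' hM) : ℂ) := by
  rw [H.wrapForm_eq]
  have h3 : ∀ k : ℤ, pair (H.cl L i₀ R hL).1 (shF (m * k) (H.cl M j₀ R' hM).1) =
      -(1 / (4 * (Real.pi : ℂ) ^ 2)) * pair L.L.curv (shF (m * k) M.L.curv) := by
    intro k
    change pair ((Complex.I / (2 * Real.pi)) • L.L.curv)
      (shF (m * k) ((Complex.I / (2 * Real.pi)) • M.L.curv)) = _
    rw [shF_smul, H.pair_smul _ _ _ (H.curv_smooth L) (H.smooth_smul _ _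
      (H.smooth_sh _ _ (H.curv_smooth M))) (H.curv_CS L i₀ R hL),
      H.pair_smul' _ _ _ (H.curv_smooth L) (H.smooth_sh _ _ (H.curv_smooth M))
      (H.curv_CS L i₀ R hL), ← mul_assoc, cc_eq]
  rw [finsum_congr h3, isec_eq L' M', h1 _ (hF.curv_smooth ⟨M.ι, M'⟩),
    h2 _ (H.curv_smooth L) (H.curv_CS L i₀ R hL)]
  have hpi : (Real.pi : ℂ) ≠ 0 := by exact_mod_cast Real.pi_ne_zero
  have hc : -(1 / (4 * (Real.pi : ℂ) ^ 2)) ≠ 0 := by
    rw [neg_ne_zero]
    exact one_div_ne_zero (mul_ne_zero (by norm_num) (pow_ne_zero 2 hpi))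
  rw [← smul_eq_mul, smul_finsum']
  · rfl
  · obtain ⟨N, hN⟩ := (H.curv_CS L i₀ R hL).pair_sh (H.curv_CS M j₀ R' hM)
    refine (Set.finite_Icc (-(N : ℤ)) N).subset fun k hk => ?_
    by_contra hcon
    apply hk
    have hm : (1 : ℤ) ≤ m := by exact_mod_cast Nat.one_le_iff_ne_zero.2 (NeZero.ne m)
    apply hN
    rw [Set.mem_Icc, ← abs_le, not_le] at hcon
    rw [abs_mul, abs_of_nonneg (by positivity)]
    nlinarith [abs_nonneg k]

include H in
/-- **From the lift and the diagonal basis on one finite cover to the final output.** -/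
theorem out {n : ℕ} (hS : ∀ (m : ℕ) [NeZero m], SurfIn (CovM h m) (m * n))
    (hF : ∀ (m : ℕ) [NeZero m], FormFacts (CovM h m))
    (hU : ∀ (m : ℕ) [NeZero m], Unimod (CovM h m) (m * n))
    (M : ℕ) [NeZero M] (hE : Elk (CovM h M) (M * n)) (hL : Lift h M) : Out h n := by
  classical
  -- integrality on the finite covers
  have hZ : ∀ (m : ℕ) [NeZero m] (L L' : ALB (CovM h m)), ∃ z : ℤ, isec L.L L'.L = z := by
    intro m _ L L'
    obtain ⟨E, G, hG, -, -, hLk, -⟩ := hU m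
    obtain ⟨k, hk⟩ := hLk L
    obtain ⟨k', hk'⟩ := hLk L'
    refine ⟨∑ i, k i * ∑ j, k' j * G j i, ?_⟩
    rw [(hF m).isec_of_exact_sub _ hk]
    push_cast
    refine Finset.sum_congr rfl fun i _ => ?_
    rw [isec_comm, (hF m).isec_of_exact_sub _ hk']
    congr 1
    refine Finset.sum_congr rfl fun j _ => ?_
    rw [hG]
  -- the canonical form
  obtain ⟨K1, hK1⟩ := (hF 1).exists_canon
  obtain ⟨K0, hK0, hK0c⟩ := H.canon_pull 1 K1 hK1
  set c : ℂ := Complex.I / (2 * Real.pi) with hc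
  set κ₀ : TwoF (Cov h) := c • K0.L.curv with hκ₀
  have hκs : κ₀.Smooth := H.smooth_smul _ _ (H.curv_smooth K0)
  have hκsh : shF 1 κ₀ = κ₀ := by
    rw [hκ₀, hK0c, shF_smul]
    congr 1
    have h1 : ∀ x : Cov h, Cov.toM 1 (Cov.shift (-1) x) = Cov.toM 1 x := fun x => by
      rw [eq_comm, Cov.toM_eq_iff]
      exact ⟨-1, by simp⟩
    unfold shF pullM
    simp only [h1]
  have hexK : ∀ K : ALB (Cov h), IsCanon K.L → ∃ A : OneF (Cov h), A.Smooth ∧
      K.L.curv = K0.L.curv + A.d := by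
    intro K hK
    obtain ⟨A, hA, hAd⟩ := H.canon K K0 hK hK0
    exact ⟨A, hA, by rw [hAd]; abel⟩
  have hpairK : ∀ (K : ALB (Cov h)) (F : TwoF (Cov h)), IsCanon K.L → F.Smooth → F.Closed →
      CS F → pair F K.L.curv = pair F K0.L.curv := by
    intro K F hK hF1 hF2 hF3
    obtain ⟨A, hA, hAd⟩ := hexK K hK
    rw [hAd, H.pair_add' _ _ _ hF1 (H.curv_smooth K0) (H.smooth_d A hA) hF3,
      H.pair_d A F hA hF1 hF2 hF3, add_zero]
  let Kap : H.Vc →ₗ[ℝ] ℝ :=
    { toFun := fun F => (pair F.1 κ₀).re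
      map_add' := fun F F' => by
        rw [Submodule.coe_add, H.pair_add _ _ _ F.2.1 F'.2.1 hκs F.2.2.2.2 F'.2.2.2.2,
          Complex.add_re]
      map_smul' := fun a F => by
        rw [Submodule.coe_smul, smulR_eq, H.pair_smul _ _ _ F.2.1 hκs F.2.2.2.2,
          Complex.re_ofReal_mul]
        rfl }
  have hyp : Hyp H.Q H.g Kap 1 := by
    refine H.hyp hS hF κ₀ hκs hκsh (fun m _ => ?_) Kap fun F => rfl
    obtain ⟨K, hK⟩ := (hF m).exists_canon
    obtain ⟨K', hK', hKc⟩ := H.canon_pull m K hK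
    refine ⟨K, fun F => ?_⟩
    rw [← hKc, hpairK K' F.1 hK' F.2.1 F.2.2.1 F.2.2.2.2, hκ₀,
      H.pair_smul' _ _ _ F.2.1 (H.curv_smooth K0) F.2.2.2.2]
  -- the lifts
  obtain ⟨E, hE1, hE2⟩ := hE
  have hlift := fun i => hL (E i) (by rw [hE1, if_pos rfl])
  choose L i₀ R hR hself hpush using hlift
  -- `K . L i`
  have hKL0 : ∀ i, c * (c * pair (L i).L.curv K0.L.curv) = -1 := by
    intro i
    obtain ⟨K, hK⟩ := (hF M).exists_canon
    obtain ⟨K', hK', hKc⟩ := H.canon_pull M K hK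
    have h1 := hE2 i K hK
    rw [isec_eq, hpush i K.L.curv ((hF M).curv_smooth K) ((hF M).curv_closed K), ← hKc,
      pair_comm, hpairK K' _ hK' (H.curv_smooth (L i)) (H.curv_closed (L i))
        (H.curv_CS (L i) (i₀ i) (R i) (hR i))] at h1
    rw [← mul_assoc, hc, cc_eq, h1]
  set e : Fin (n * M) → H.Vc := fun i =>
    H.cl (L (Fin.cast (mul_comm n M) i)) (i₀ _) (R _) (hR _) with he
  have hKe : ∀ i, Kap (e i) = -1 := by
    intro i
    change (pair (c • (L (Fin.cast (mul_comm n M) i)).L.curv) (c • K0.L.curv)).re = -1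
    rw [H.pair_smul _ _ _ (H.curv_smooth _) hκs (H.curv_CS _ _ _ (hR _)),
      H.pair_smul' _ _ _ (H.curv_smooth _) (H.curv_smooth K0) (H.curv_CS _ _ _ (hR _)), hKL0]
    simp
  have hself' : ∀ i, H.Q (e i) (e i) = -1 := by
    intro i
    have h1 := hself (Fin.cast (mul_comm n M) i)
    rw [H.isec_eq_Q _ _ _ _ _ _ (hR _) (hR _)] at h1
    exact_mod_cast h1
  have horth : ∀ i j, wrapForm H.Q H.g M (e i) (e j) = if i = j then -1 else 0 := by
    intro i j
    set i' := Fin.cast (mul_comm n M) i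
    set j' := Fin.cast (mul_comm n M) j
    obtain ⟨W, hW1, hW2, -, hW4, hW5⟩ := H.wrap M (e j).1 (e j).2.1 (e j).2.2.1 (e j).2.2.2.2
    obtain ⟨W', hW1', hW2', -, hW4', hW5'⟩ :=
      H.wrap M (e i).1 (e i).2.1 (e i).2.2.1 (e i).2.2.2.2
    -- pairing with `e i` is pairing with `E i`
    have hpe : ∀ (k : Fin (M * n)) (F : TwoF (CovM h M)), F.Smooth → F.Closed →
        pair (c • (L k).L.curv) (pullM M F) = c * pair (E k).L.curv F := by
      intro k F hF1 hF2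
      rw [H.pair_smul _ _ _ (H.curv_smooth _) (H.smooth_pull M F hF1)
        (H.curv_CS _ _ _ (hR _))]
      congr 1
      have h1 := hpush k F hF1 hF2
      rw [pair_comm F] at h1
      rw [h1, pair_comm]
    have h1 : (wrapForm H.Q H.g M (e i) (e j) : ℂ) = isec (E i').L (E j').L := by
      rw [H.wrapForm_eq, ← hW5 (e i).1 (e i).2.1 (e i).2.2.2.2]
      change pair (c • (L i').L.curv) (pullM M W) = _
      rw [hpe i' W hW1 hW2, pair_comm, hW4 _ ((hF M).curv_smooth _)]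
      change c * pair (c • (L j').L.curv) (pullM M (E i').L.curv) = _
      rw [hpe j' _ ((hF M).curv_smooth _) ((hF M).curv_closed _), ← mul_assoc, hc, cc_eq,
        isec_comm]
      rfl
    rw [hE1] at h1
    have h2 : (i' = j') ↔ i = j := by
      simp [i', j']
    simp only [h2] at h1
    split_ifs at h1 ⊢ <;> exact_mod_cast h1
  have hint : ∀ i j (k : ℤ), ∃ z : ℤ, H.Q (e i) ((H.g ^ k) (e j)) = z := by
    intro i j k
    set i' := Fin.cast (mul_comm n M) i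
    set j' := Fin.cast (mul_comm n M) j
    obtain ⟨Ls, hLs⟩ := H.exists_shift k (L j')
    have hLsT := endTriv_shift (hR j') hLs
    have hcls := H.cl_shift (hR j') hLs hLsT
    -- a large covering
    have hev := eventually_wrapForm H.local_Q (e i) ((H.g ^ k) (e j))
    obtain ⟨m0, hm0⟩ := Filter.eventually_atTop.1 hev
    obtain ⟨m1, hm1⟩ := exists_nat_ge (2 * R i')
    obtain ⟨m2, hm2⟩ := exists_nat_ge (2 * (R j' + |(k : ℝ)|))
    set m := m0 + m1 + m2 + 1 with hm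
    have _ : NeZero m := ⟨by omega⟩
    have hmR : ((m : ℕ) : ℝ) = m0 + m1 + m2 + 1 := by rw [hm]; push_cast; ring
    have hnn0 : (0 : ℝ) ≤ m0 := Nat.cast_nonneg _
    have hnn1 : (0 : ℝ) ≤ m1 := Nat.cast_nonneg _
    have hnn2 : (0 : ℝ) ≤ m2 := Nat.cast_nonneg _
    obtain ⟨L1, -, hL1, -⟩ := H.per m (L i') (i₀ i') (R i') (hR i') (by rw [hmR]; linarith)
    obtain ⟨L2, -, -, hL2⟩ := H.per m ⟨(L j').ι, Ls⟩ (i₀ j') _ hLsT (by rw [hmR]; linarith)
    have h1 := H.isec_per (hF m) (hR i') hLsT hL1 hL2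
    rw [hcls] at h1
    obtain ⟨z, hz⟩ := hZ m ⟨_, L1⟩ ⟨_, L2⟩
    refine ⟨z, ?_⟩
    have h2 : wrapForm H.Q H.g m (e i) ((H.g ^ k) (e j)) = H.Q (e i) ((H.g ^ k) (e j)) :=
      hm0 m (by omega)
    change isec L1 L2 = (z : ℂ) at hz
    rw [h1] at hz
    rw [← h2]
    exact_mod_cast hz
  obtain ⟨-, f, -, hf⟩ := hyp.orbits (Nat.pos_of_ne_zero (NeZero.ne M)) hself' hKe hint horth
  -- the output
  set q : Fin n → Fin (M * n) := fun i => Fin.cast (mul_comm n M) (f i) with hq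
  have heq : ∀ i, e (f i) = H.cl (L (q i)) (i₀ (q i)) (R (q i)) (hR (q i)) := fun i => rfl
  set R0 : ℝ := ∑ i, |R (q i)| with hR0
  have hR0le : ∀ i, R (q i) ≤ R0 := fun i =>
    (le_abs_self _).trans (Finset.single_le_sum (f := fun i => |R (q i)|)
      (fun j _ => abs_nonneg _) (Finset.mem_univ i))
  have hT : ∀ i, EndTriv h (L (q i)) (i₀ (q i)) R0 := fun i x hx =>
    hR (q i) x ((hR0le i).trans hx)
  have hKall : ∀ (i) (K : ALB (Cov h)), IsCanon K.L → isec K.L (L (q i)).L = -1 := by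
    intro i K hK
    rw [isec_eq, pair_comm, hpairK K _ hK (H.curv_smooth _) (H.curv_closed _)
      (H.curv_CS _ _ _ (hR _)), ← cc_eq, mul_assoc, hKL0]
  refine ⟨fun i => L (q i), fun i => i₀ (q i), R0, Finset.sum_nonneg fun i _ => abs_nonneg _, hT,
    ?_, hKall, ?_⟩
  · intro i j k L' hL'
    have h1 := H.isec_eq_Q (L (q i)) ⟨(L (q j)).ι, L'⟩ (i₀ (q i)) (i₀ (q j)) _ _ (hR (q i))
      (endTriv_shift (hR (q j)) hL')
    rw [H.cl_shift (hR (q j)) hL', ← heq, ← heq, hf] at h1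
    rw [h1]
    split_ifs <;> simp
  · intro m _ hm i
    obtain ⟨E', hE'1, hE'2, hE'3⟩ := H.per m (L (q i)) (i₀ (q i)) R0 (hT i) hm
    refine ⟨E', hE'1, ?_, ?_⟩
    · rw [H.isec_per (hF m) (hR (q i)) (hR (q i)) hE'2 hE'3, ← heq]
      have h1 : wrapForm H.Q H.g m (e (f i)) (e (f i)) = -1 := by
        unfold wrapForm
        rw [finsum_eq_single _ 0]
        · simp [hself']
        · intro k hk
          rw [hf, if_neg]
          rintro ⟨-, h2⟩
          rcases mul_eq_zero.1 h2 with h3 | h3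
          · exact NeZero.ne m (by exact_mod_cast h3)
          · exact hk h3
      rw [h1]
      simp
    · intro K hK
      obtain ⟨K', hK', hKc⟩ := H.canon_pull m K hK
      rw [isec_eq, pair_comm, hE'2 _ ((hF m).curv_smooth K), ← hKc, pair_comm]
      exact hKall i K' hK'

end CovFacts

end Vale.Agent.P267.BlockC
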