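import Vale.Agent.P267.H283.Out
import Vale.Agent.P267.H928.K1.Gen
import Vale.Agent.P267.H399.LBCurv

/-!
# P267, (F2): integrality and Parseval (1), closed surfaces

`curv_tensor`, `isec_tensor`, integrality of intersection numbers from Riemann-Roch, Parseval for an
orthogonal family of closed two-forms of cardinality `b₂`.
-/

set_option linter.unusedVariables false
set_option linter.unusedSectionVars false

open scoped Manifold ContDiff ComplexConjugate
open Set
open Vale.Agent.P267.FL Vale.Agent.P267.H158 Vale.Agent.P267.RR Vale.Agent.P267.BlockC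

noncomputable section

namespace Vale.Agent.P267.H283

section gen

variable {M : Type*} [TopologicalSpace M] [ChartedSpace C2 M] [IsManifold 𝓘(ℂ, C2) ω M]
  {ι ι' : Type} [Fintype ι] [DecidableEq ι] [Fintype ι'] [DecidableEq ι']

theorem twoF_eq {F G : TwoF M} (h1 : ∀ x, F.f20 x = G.f20 x) (h2 : ∀ x i j, F.f11 x i j = G.f11 x i j)
    (h3 : ∀ x, F.f02 x = G.f02 x) : F = G := by
  cases F
  cases G
  congr 1
  · exact funext h1
  · funext x
    ext i j
    exact h2 x i j
  · exact funext h3

theorem curv_tensor (L : LB M ι) (L' : LB M ι') : (L.tensor L').curv = L.curv + L'.curv :=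
  twoF_eq (fun x => LB.F20_tensor L L' x) (fun x i j => LB.F11_tensor L L' x i j)
    (fun x => LB.F02_tensor L L' x)

theorem curv_dual (L : LB M ι) : L.dual.curv = (-1 : ℂ) • L.curv :=
  twoF_eq (fun x => by
      change L.dual.F20 x = (-1 : ℂ) * L.F20 x
      rw [LB.F20_dual, neg_one_mul])
    (fun x i j => by
      change L.dual.F11 x i j = (-1 : ℂ) * L.F11 x i j
      rw [LB.F11_dual, neg_one_mul])
    (fun x => by
      change L.dual.F02 x = (-1 : ℂ) * L.F02 x
      rw [LB.F02_dual, neg_one_mul])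

/-- the tensor product, with its index type -/
def ten (L M' : ALB M) : ALB M := ⟨L.ι × M'.ι, L.L.tensor M'.L⟩

/-- the dual, with its index type -/
def du (L : ALB M) : ALB M := ⟨L.ι, L.L.dual⟩

theorem ten_curv (L M' : ALB M) : (ten L M').L.curv = L.L.curv + M'.L.curv := curv_tensor _ _

theorem du_curv (L : ALB M) : (du L).L.curv = (-1 : ℂ) • L.L.curv := curv_dual _

end gen

section closed

variable {Y : Type} [TopologicalSpace Y] [ChartedSpace C2 Y] [IsManifold 𝓘(ℂ, C2) ω Y]

theorem isec_ten (hF : FormFacts Y) (L L' M : ALB Y) :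
    isec (ten L L').L M.L = isec L.L M.L + isec L'.L M.L := by
  rw [BlockC.isec_eq, BlockC.isec_eq, BlockC.isec_eq, ten_curv,
    hF.pair_add _ _ _ (hF.curv_smooth L) (hF.curv_smooth L') (hF.curv_smooth M)]
  ring

theorem isec_ten' (hF : FormFacts Y) (L L' M : ALB Y) :
    isec M.L (ten L L').L = isec M.L L.L + isec M.L L'.L := by
  rw [BlockC.isec_comm M.L, isec_ten hF, BlockC.isec_comm M.L, BlockC.isec_comm M.L]

theorem isec_du (hF : FormFacts Y) (L M : ALB Y) : isec (du L).L M.L = -isec L.L M.L := by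
  rw [BlockC.isec_eq, BlockC.isec_eq, du_curv,
    hF.pair_smul _ _ _ (hF.curv_smooth L) (hF.curv_smooth M)]
  ring

/-- **Intersection numbers are integers** (polarisation of Riemann-Roch). -/
theorem isec_int (hF : FormFacts Y) {N : ℕ} (hS : SurfIn Y N) (L M : ALB Y) :
    ∃ z : ℤ, isec L.L M.L = z := by
  obtain ⟨K, hK⟩ := hF.exists_canon
  obtain ⟨k1, h1⟩ := hS.rr L K hK
  obtain ⟨k2, h2⟩ := hS.rr M K hK
  obtain ⟨k3, h3⟩ := hS.rr (ten L M) K hK
  refine ⟨k1 + k2 - k3, ?_⟩
  rw [isec_ten hF, isec_ten' hF, isec_ten' hF, isec_ten' hF, BlockC.isec_comm M.L L.L] at h3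
  push_cast
  linear_combination (h3 - h1 - h2) / 2

/-- **Parseval** on a closed surface. -/
theorem parseval [T2Space Y] [CompactSpace Y] (hFF : FormFacts Y) {β : Type*} [Fintype β]
    [DecidableEq β] {N : ℕ} (hB : BettiSucc Y 1 N) (hβ : Fintype.card β = N) {c : ℂ} (hc : c ≠ 0)
    {w : β → TwoF Y} (hw : ∀ b, (w b).Smooth) (hw' : ∀ b, (w b).Closed)
    (hp : ∀ a b, pair (w a) (w b) = if a = b then c else 0) {F G : TwoF Y} (hF : F.Smooth)
    (hF' : F.Closed) (hG : G.Smooth) (hG' : G.Closed) :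
    pair F G = c⁻¹ * ∑ b, pair F (w b) * pair G (w b) := by
  subst hβ
  set e : Fin (Fintype.card β) ≃ β := (Fintype.equivFin β).symm with he
  have h1 := H928.K1.exact_of_orthogonal hB hc (w := fun i => w (e i)) (fun i => hw _)
    (fun i => hw' _) (fun i j => by
      rw [hp]
      simp only [EmbeddingLike.apply_eq_iff_eq]) hF hF'
  obtain ⟨A, hA, hAF⟩ := h1
  have h2 : F = A.d + ∑ i, (pair F (w (e i)) / c) • w (e i) := by rw [hAF]; abel
  have h3 : pair F G = ∑ i, (pair F (w (e i)) / c) * pair (w (e i)) G := by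
    conv_lhs => rw [h2]
    rw [hFF.pair_add _ _ _ (hFF.smooth_d A hA) (hFF.smooth_sum _ _ (fun i => hw _) _) hG,
      hFF.pair_d A G hA hG hG', zero_add, hFF.pair_sum _ _ (fun i => hw _) hG]
  rw [h3, Finset.mul_sum, ← Equiv.sum_comp e]
  refine Finset.sum_congr rfl fun i _ => ?_
  rw [BlockC.pair_comm (w (e i)) G]
  field_simp

end closed

end Vale.Agent.P267.H283
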