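import Vale.Agent.P267.H68.Cone
import Vale.Agent.P267.H439.OfLoc
import Vale.Agent.P267.H857.Bridge4
import Vale.Agent.P267.H469.Del2
import Vale.Agent.P267.H995.Zig

/-!
# P267, UNI-POIN: the Poincaré lemma on chart-convex sets, every closed two-form has a zigzag
-/

set_option linter.unusedSectionVars false

open scoped Manifold ContDiff ComplexConjugate Matrix
open Set Filter Topology

noncomputable section

namespace Vale.Agent.P267.H283

open Vale.Agent.P267.FL Vale.Agent.P267.H857 Vale.Agent.P267.H995 Vale.Agent.P267.H439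

variable {X : Type*} [TopologicalSpace X] [ChartedSpace C2 X]

/-- chart-convex sets -/
def CC (W : Set X) : Prop := ∃ e ∈ atlas C2 X, W ⊆ e.source ∧ Convex ℝ (e '' W)

/-! ### one-forms given in one chart -/

/-- the one-form with components `c`, `a` in the chart `e` -/
def inCh (e : Ch X) (c a : C2 → Fin 2 → ℂ) : OneF X :=
  ⟨H469.cj1 (of1 0 e fun z i => conj (c z i)), of1 0 e a⟩

section manifold

variable [IsManifold 𝓘(ℂ, C2) ω X]

theorem loc10_inCh {e : Ch X} (he : e ∈ atlas C2 X) {z : C2} (hz : z ∈ e.target)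
    (c a : C2 → Fin 2 → ℂ) : loc10 e (inCh e c a).f10 z = c z := by
  funext i
  change loc10 e (H469.cj1 _) z i = _
  rw [H469.loc10_cj1, loc1_of1 he hz, Complex.conj_conj]

theorem loc1_inCh {e : Ch X} (he : e ∈ atlas C2 X) {z : C2} (hz : z ∈ e.target)
    (c a : C2 → Fin 2 → ℂ) : loc1 0 e (inCh e c a).f01 z = a z := by
  funext i
  exact loc1_of1 he hz _ _

theorem conj_cda {n : WithTop ℕ∞} {f : C2 → ℂ} {z : C2} :
    ContDiffAt ℝ n (fun y => conj (f y)) z ↔ ContDiffAt ℝ n f z := by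
  have key : ∀ g : C2 → ℂ, ContDiffAt ℝ n g z → ContDiffAt ℝ n (fun y => conj (g y)) z :=
    fun g hg => Complex.conjCLE.contDiff.contDiffAt.comp z hg
  refine ⟨fun h => ?_, key f⟩
  have := key _ h
  simpa using this

/-- smoothness of a one-form at a point, in any chart -/
theorem oat_iff {A : OneF X} {x : X} {e : Ch X} (he : e ∈ atlas C2 X) (hx : x ∈ e.source) :
    OAt A x ↔ ContDiffAt ℝ ∞ (loc10 e A.f10) (e x) ∧ ContDiffAt ℝ ∞ (loc1 0 e A.f01) (e x) := by
  have key : ∀ e' : Ch X, ContDiffAt ℝ ∞ (loc10 e' A.f10) (e' x) ↔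
      ContDiffAt ℝ ∞ (loc1 0 e' (H469.cj1 A.f10)) (e' x) := by
    intro e'
    rw [contDiffAt_pi, contDiffAt_pi]
    refine forall_congr' fun i => ?_
    have h1 : (fun z => loc1 0 e' (H469.cj1 A.f10) z i) = fun z => conj (loc10 e' A.f10 z i) :=
      funext fun z => H469.loc1_cj1 e' A.f10 z i
    rw [h1, conj_cda]
  have h0 : OAt A x ↔ ContDiffAt ℝ ∞ (loc10 (chartAt C2 x) A.f10) (chartAt C2 x x) ∧
      ContDiffAt ℝ ∞ (loc1 0 (chartAt C2 x) A.f01) (chartAt C2 x x) := by
    rw [contDiffAt_pi, contDiffAt_pi]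
    exact ⟨fun h => ⟨fun i => h (Sum.inl i), fun i => h (Sum.inr i)⟩,
      fun h q => by rcases q with i | i; exacts [h.1 i, h.2 i]⟩
  rw [h0, key, key]
  constructor
  · rintro ⟨h1, h2⟩
    exact ⟨At1.chart h1 he hx, At1.chart h2 he hx⟩
  · rintro ⟨h1, h2⟩
    exact ⟨at1_of_chart he hx h1, at1_of_chart he hx h2⟩

/-- `d` in the preferred chart -/
theorem ofTwo_d {A : OneF X} {x : X} (h : OAt A x) :
    (extDeriv (pullC (chartAt C2 x).symm (ofOne A)) (chartAt C2 x x) : C2 [⋀^Fin 2]→L[ℝ] ℂ) =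
      alt2 (A.d.f20 x) (A.d.f11 x) (A.d.f02 x) := by
  obtain ⟨h1, h2⟩ := (oat_iff (chart_mem_atlas C2 x) (mem_chart_source C2 x)).1 h
  refine (extDeriv_pullC_ofOne (chart_mem_atlas C2 x) A (mem_chart_target C2 x)
    (h1.differentiableAt (by simp)) (h2.differentiableAt (by simp))).trans ?_
  change _ = alt2 (del10 A.f10 x) ((del1 A.f01 + dbar10 A.f10) x) (dbar1 0 A.f01 x)
  congr 1

/-- smoothness of the pull-back of a one-form -/
theorem cda_pullC_ofOne {A : OneF X} {x : X} (h : OAt A x) {e : Ch X} (he : e ∈ atlas C2 X)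
    (hx : x ∈ e.source) : ContDiffAt ℝ ∞ (pullC e.symm (ofOne A)) (e x) := by
  obtain ⟨h1, h2⟩ := (oat_iff he hx).1 h
  rw [contDiffAt_pi] at h1 h2
  exact (contDiffAt_alt1 h1 h2).congr_of_eventuallyEq (pullC_ofOne_ev he A (e.map_source hx))

/-- the pull-back of `dA`, in any chart -/
theorem extDeriv_ofOne {A : OneF X} {x : X} (h : OAt A x) {e : Ch X} (he : e ∈ atlas C2 X)
    (hx : x ∈ e.source) :
    extDeriv (pullC e.symm (ofOne A)) (e x) = pullC e.symm (ofTwo A.d) (e x) := by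
  rw [extDeriv_change he (chart_mem_atlas C2 x) (ofOne A) hx (mem_chart_source C2 x)
    ((cda_pullC_ofOne h (chart_mem_atlas C2 x) (mem_chart_source C2 x)).differentiableAt (by simp)),
    ofTwo_d h, pullC_change he (chart_mem_atlas C2 x) (ofTwo A.d) hx (mem_chart_source C2 x),
    pullC_chartAt]
  rfl

theorem pullC_inj {k : ℕ} {e : Ch X} (he : e ∈ atlas C2 X) {x : X} (hx : x ∈ e.source)
    {a b : CForm k X} (h : pullC e.symm a (e x) = pullC e.symm b (e x)) : a x = b x := by
  have h1 := pullC_change (chart_mem_atlas C2 x) he a (mem_chart_source C2 x) hx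
  have h2 := pullC_change (chart_mem_atlas C2 x) he b (mem_chart_source C2 x) hx
  rw [h, ← h2, pullC_chartAt, pullC_chartAt] at h1
  exact h1

theorem pr_of_ofTwo {F G : TwoF X} {x : X} (h : ofTwo F x = ofTwo G x) (q q' : Qi) :
    pr F x q q' = pr G x q q' := by
  obtain ⟨h1, h2, h3⟩ := alt2_inj (a := F.f20 x) (a' := G.f20 x) (b := F.f02 x) (b' := G.f02 x)
    (g := F.f11 x) (g' := G.f11 x) h
  rcases q with i | i <;> rcases q' with j | j <;> simp only [pr, h1, h2, h3]

theorem vv_of_ofOne {A B : OneF X} {x : X} (h : ofOne A x = ofOne B x) (q : Qi) :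
    vv A x q = vv B x q := by
  obtain ⟨h1, h2⟩ := alt1_inj (a := A.f10 x) (a' := B.f10 x) (b := A.f01 x) (b' := B.f01 x) h
  rcases q with i | i <;> simp only [vv, h1, h2]

theorem image_facts {e : Ch X} {W : Set X} (hWe : W ⊆ e.source) {z : C2} (hz : z ∈ e '' W) :
    z ∈ e.target ∧ e.symm z ∈ W ∧ e (e.symm z) = z := by
  obtain ⟨x, hx, rfl⟩ := hz
  exact ⟨e.map_source (hWe hx), by rw [e.left_inv (hWe hx)]; exact hx,
    by rw [e.left_inv (hWe hx)]⟩

/-- **Poincaré lemma**, degree two -/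
theorem exists_prim_two {F : TwoF X} (hF : F.Smooth) (hcl : F.Closed) {W : Set X} (hW : IsOpen W)
    (hc : CC W) : ∃ A : OneF X, ∀ x ∈ W, OAt A x ∧ ∀ q q', pr A.d x q q' = pr F x q q' := by
  rcases W.eq_empty_or_nonempty with hn | ⟨x0, hx0⟩
  · exact ⟨0, by simp [hn]⟩
  obtain ⟨e, he, hWe, hconv⟩ := hc
  have hWo : IsOpen (e '' W) := e.isOpen_image_of_subset_source hW hWe
  have hst : StarConvex ℝ (e x0) (e '' W) := hconv.starConvex (mem_image_of_mem e hx0)
  have h1 : ContDiffOn ℝ ∞ (pullC e.symm (ofTwo F)) (e '' W) := fun z hz =>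
    ((smoothC_ofTwo.2 hF).contDiffAt he (image_facts hWe hz).1).contDiffWithinAt
  have h2 : ∀ z ∈ e '' W, extDeriv (pullC e.symm (ofTwo F)) z = 0 := by
    intro z hz
    have := (isExtDerivC_ofTwo_zero hF).2 hcl e he z (image_facts hWe hz).1
    rw [this]
    rfl
  obtain ⟨γ, hγ1, hγ2⟩ := H68.exists_primitive hWo hst h1 h2
  refine ⟨inCh e (fun z => cf10 (γ z)) (fun z => cf01 (γ z)), fun x hx => ?_⟩
  set A := inCh e (fun z => cf10 (γ z)) (fun z => cf01 (γ z)) with hA
  have hxs : x ∈ e.source := hWe hx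
  have hγx : ContDiffAt ℝ ∞ γ (e x) := hγ1.contDiffAt (hWo.mem_nhds (mem_image_of_mem e hx))
  have h10 : loc10 e A.f10 =ᶠ[𝓝 (e x)] fun z => cf10 (γ z) := by
    filter_upwards [e.open_target.mem_nhds (e.map_source hxs)] with z hz
    exact loc10_inCh he hz _ _
  have h01 : loc1 0 e A.f01 =ᶠ[𝓝 (e x)] fun z => cf01 (γ z) := by
    filter_upwards [e.open_target.mem_nhds (e.map_source hxs)] with z hz
    exact loc1_inCh he hz _ _
  have hOAt : OAt A x := by
    rw [oat_iff he hxs]
    refine ⟨ContDiffAt.congr_of_eventuallyEq ?_ h10, ContDiffAt.congr_of_eventuallyEq ?_ h01⟩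
    · rw [contDiffAt_pi]
      exact fun i => contDiffAt_cf10 hγx i
    · rw [contDiffAt_pi]
      exact fun i => contDiffAt_cf01 hγx i
  refine ⟨hOAt, fun q q' => pr_of_ofTwo (pullC_inj he hxs ?_) q q'⟩
  rw [← extDeriv_ofOne hOAt he hxs, ← hγ2 _ (mem_image_of_mem e hx)]
  refine EventuallyEq.extDeriv_eq ?_
  filter_upwards [e.open_target.mem_nhds (e.map_source hxs)] with z hz
  rw [pullC_ofOne he A hz, loc10_inCh he hz, loc1_inCh he hz, alt1_cf]

/-- **Poincaré lemma**, degree one -/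
theorem exists_prim_one {B : OneF X} {W : Set X} (hW : IsOpen W) (hc : CC W)
    (hB : ∀ x ∈ W, OAt B x) (hcl : ∀ x ∈ W, ∀ q q', pr B.d x q q' = 0) :
    ∃ f : X → ℂ, ∀ x ∈ W, SmAt f x ∧ ∀ q, vv B x q = DT (tq q) x f := by
  rcases W.eq_empty_or_nonempty with hn | ⟨x0, hx0⟩
  · exact ⟨0, by simp [hn]⟩
  obtain ⟨e, he, hWe, hconv⟩ := hc
  have hWo : IsOpen (e '' W) := e.isOpen_image_of_subset_source hW hWe
  have hst : StarConvex ℝ (e x0) (e '' W) := hconv.starConvex (mem_image_of_mem e hx0)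
  have h1 : ContDiffOn ℝ ∞ (pullC e.symm (ofOne B)) (e '' W) := fun z hz => by
    obtain ⟨-, h2, h3⟩ := image_facts hWe hz
    have := cda_pullC_ofOne (hB _ h2) he (hWe h2)
    rw [h3] at this
    exact this.contDiffWithinAt
  have h2 : ∀ z ∈ e '' W, extDeriv (pullC e.symm (ofOne B)) z = 0 := by
    intro z hz
    obtain ⟨-, h2, h3⟩ := image_facts hWe hz
    have h4 := extDeriv_ofOne (hB _ h2) he (hWe h2)
    rw [h3] at h4
    have h5 : ofTwo B.d (e.symm z) = ofTwo (0 : TwoF X) (e.symm z) := by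
      have h6 := hcl _ h2
      have e1 : B.d.f20 (e.symm z) = 0 := by simpa [pr] using h6 (Sum.inl 0) (Sum.inl 1)
      have e2 : B.d.f11 (e.symm z) = 0 := by
        ext i j
        exact h6 (Sum.inl i) (Sum.inr j)
      have e3 : B.d.f02 (e.symm z) = 0 := by simpa [pr] using h6 (Sum.inr 0) (Sum.inr 1)
      simp only [ofTwo, e1, e2, e3]
      rfl
    rw [h4, pullC_eq he _ (image_facts hWe hz).1, h5]
    change (alt2 0 0 0).compContinuousLinearMap _ = 0
    rw [alt2_zero]
    rfl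
  obtain ⟨γ, hγ1, hγ2⟩ := H68.exists_primitive hWo hst h1 h2
  refine ⟨fun x => γ (e x) ![], fun x hx => ?_⟩
  set f : X → ℂ := fun x => γ (e x) ![] with hf
  have hxs : x ∈ e.source := hWe hx
  have hγx : ContDiffAt ℝ ∞ γ (e x) := hγ1.contDiffAt (hWo.mem_nhds (mem_image_of_mem e hx))
  have hloc : loc0 0 e f =ᶠ[𝓝 (e x)] fun z => γ z ![] := by
    filter_upwards [e.open_target.mem_nhds (e.map_source hxs)] with z hz
    rw [LB.loc0_zero, Function.comp, hf]
    simp only
    rw [e.right_inv hz]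
  have hAt : At0 ∞ 0 f x := at0_of_chart he hxs
    (ContDiffAt.congr_of_eventuallyEq (contDiffAt_eval hγx _) hloc)
  have hSm : SmAt f x := by
    have h3 : ContDiffAt ℝ ∞ (loc0 0 (chartAt C2 x) f) (chartAt C2 x x) := hAt
    rw [LB.loc0_zero] at h3
    exact h3
  refine ⟨hSm, fun q => ?_⟩
  rw [← vv_dF0]
  refine vv_of_ofOne ?_ q
  have h5 : extDeriv (pullC e.symm (ofFun f)) (e x) = pullC e.symm (ofOne B) (e x) := by
    rw [← hγ2 _ (mem_image_of_mem e hx)]
    refine EventuallyEq.extDeriv_eq ?_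
    filter_upwards [hloc] with z hz
    rw [pullC_ofFun, hz]
    ext v
    rw [ContinuousAlternatingMap.constOfIsEmpty_apply, Subsingleton.elim v ![]]
  have h6 := extDeriv_change (chart_mem_atlas C2 x) he (ofFun f) (mem_chart_source C2 x) hxs (by
    rw [pullC_ofFun_ev]
    exact (contDiffAt_ofEmpty.2 (ContDiffAt.congr_of_eventuallyEq (contDiffAt_eval hγx _)
      hloc)).differentiableAt (by simp))
  rw [h5, ← pullC_change (chart_mem_atlas C2 x) he (ofOne B) (mem_chart_source C2 x) hxs,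
    pullC_chartAt] at h6
  have h7 := congrFun (dC_ofFun f) x
  exact (h7.symm.trans h6).symm

theorem fderiv_eq_zero_of {L : C2 →L[ℝ] ℂ} (h : ∀ q, tq q L = 0) : L = 0 := by
  ext v
  have h1 : ∀ i, (1 / 2 : ℂ) * (L (be i) - Complex.I * L (bi i)) = 0 := fun i => h (Sum.inl i)
  have h2 : ∀ i, (1 / 2 : ℂ) * (L (be i) + Complex.I * L (bi i)) = 0 := fun i => h (Sum.inr i)
  rw [clm_decomp L v]
  simp only [h1, h2, zero_mul, Finset.sum_const_zero, add_zero]
  rfl

/-- a function with zero derivative is constant on a preconnected open set -/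
theorem exists_const {f : X → ℂ} {W : Set X} (hW : IsOpen W) (hc : IsPreconnected W)
    (hf : ∀ x ∈ W, SmAt f x ∧ ∀ q, DT (tq q) x f = 0) : ∃ r : ℂ, ∀ x ∈ W, f x = r := by
  rcases W.eq_empty_or_nonempty with rfl | ⟨x₀, hx₀⟩
  · exact ⟨0, by simp⟩
  have hloc : ∀ x ∈ W, ∀ᶠ y in 𝓝 x, f y = f x := by
    intro x hx
    set c := chartAt C2 x with hcd
    have hca : c ∈ atlas C2 X := chart_mem_atlas C2 x
    have hxc : x ∈ c.source := mem_chart_source C2 x
    -- the derivative in the chart `c` vanishes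
    have hd : ∀ z ∈ c.target ∩ c.symm ⁻¹' W,
        HasFDerivAt (fun w => f (c.symm w)) (0 : C2 →L[ℝ] ℂ) z := by
      rintro z ⟨hz, hzW⟩
      obtain ⟨h1, h2⟩ := hf _ hzW
      set y := c.symm z with hy
      set c' := chartAt C2 y with hc'
      have hyc' : y ∈ c'.source := mem_chart_source C2 y
      have hca' : c' ∈ atlas C2 X := chart_mem_atlas C2 y
      have hyc : y ∈ c.source := c.map_target hz
      have h3 : HasFDerivAt (fun w => f (c'.symm w)) (0 : C2 →L[ℝ] ℂ) (c' y) := by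
        have h4 := (ContDiffAt.differentiableAt h1 (by simp)).hasFDerivAt
        have h5 : fderiv ℝ (fun w => f (c'.symm w)) (c' y) = 0 := fderiv_eq_zero_of h2
        rw [← hc', h5] at h4
        exact h4
      have h6 : DifferentiableAt ℝ (fun w => c' (c.symm w)) z := by
        have := (trans_differentiableAt hca hca' hyc hyc').restrictScalars ℝ
        rwa [c.right_inv hz] at this
      have h7 := HasFDerivAt.comp z (g := fun w => f (c'.symm w)) (f := fun w => c' (c.symm w))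
        (g' := 0) h3 h6.hasFDerivAt
      rw [ContinuousLinearMap.zero_comp] at h7
      refine h7.congr_of_eventuallyEq ?_
      have h8 : ∀ᶠ w in 𝓝 z, c.symm w ∈ c'.source :=
        (c.symm.continuousAt hz).eventually (c'.open_source.mem_nhds hyc')
      filter_upwards [h8] with w hw
      simp only [Function.comp, c'.left_inv hw]
    have hO : IsOpen (c.target ∩ c.symm ⁻¹' W) := c.symm.isOpen_inter_preimage hW
    have hmem : c x ∈ c.target ∩ c.symm ⁻¹' W :=
      ⟨c.map_source hxc, by rw [mem_preimage, c.left_inv hxc]; exact hx⟩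
    obtain ⟨ε, hε, hb⟩ := Metric.isOpen_iff.1 hO _ hmem
    have hconst : ∀ z ∈ Metric.ball (c x) ε, f (c.symm z) = f (c.symm (c x)) := by
      intro z hz
      refine IsOpen.is_const_of_fderiv_eq_zero (𝕜 := ℝ) (f := fun w => f (c.symm w))
        Metric.isOpen_ball (convex_ball (c x) ε).isPreconnected
        (fun w hw => (hd w (hb hw)).differentiableAt.differentiableWithinAt)
        (fun w hw => (hd w (hb hw)).fderiv) hz (Metric.mem_ball_self hε)
    have h9 : ∀ᶠ y in 𝓝 x, c y ∈ Metric.ball (c x) ε :=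
      (c.continuousAt hxc).eventually (Metric.ball_mem_nhds _ hε)
    filter_upwards [h9, c.open_source.mem_nhds hxc] with y hy hyc
    have := hconst _ hy
    rwa [c.left_inv hyc, c.left_inv hxc] at this
  have : PreconnectedSpace W := isPreconnected_iff_preconnectedSpace.1 hc
  have hlc : IsLocallyConstant fun x : W => f x := by
    rw [IsLocallyConstant.iff_eventually_eq]
    intro x
    exact continuousAt_subtype_val.eventually (hloc x x.2)
  refine ⟨f x₀, fun x hx => ?_⟩
  exact hlc.apply_eq_of_preconnectedSpace ⟨x, hx⟩ ⟨x₀, hx₀⟩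

/-- **Every smooth closed two-form has a zigzag** over a chart-convex cover. -/
theorem exists_zig {F : TwoF X} (hF : F.Smooth) (hcl : F.Closed) {ι : Type*} {U : ι → Set X}
    (hU : ∀ a, IsOpen (U a)) (h1 : ∀ a, CC (U a)) (h2 : ∀ a b, CC (U a ∩ U b))
    (h3 : ∀ a b c, IsPreconnected (U a ∩ U b ∩ U c)) : Nonempty (Zig U F) := by
  choose om hom using fun a => exists_prim_two hF hcl (hU a) (h1 a)
  have hl : ∀ a b, ∃ f : X → ℂ, ∀ x ∈ U a ∩ U b, SmAt f x ∧
      ∀ q, vv (om b - om a) x q = DT (tq q) x f := by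
    intro a b
    refine exists_prim_one ((hU a).inter (hU b)) (h2 a b) (fun x hx => ?_) fun x hx q q' => ?_
    · exact (hom b x hx.2).1.sub (hom a x hx.1).1
    · rw [pr_d_sub (hom b x hx.2).1 (hom a x hx.1).1, (hom b x hx.2).2, (hom a x hx.1).2,
        sub_self]
  choose l hl using hl
  have hr : ∀ a b c, ∃ r : ℂ, ∀ x ∈ U a ∩ U b ∩ U c, l a b x + l b c x - l a c x = r := by
    intro a b c
    refine exists_const (((hU a).inter (hU b)).inter (hU c)) (h3 a b c) fun x hx => ?_
    obtain ⟨s1, e1⟩ := hl a b x ⟨hx.1.1, hx.1.2⟩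
    obtain ⟨s2, e2⟩ := hl b c x ⟨hx.1.2, hx.2⟩
    obtain ⟨s3, e3⟩ := hl a c x ⟨hx.1.1, hx.2⟩
    have s3' : SmAt (fun y => (-1 : ℂ) * l a c y) x := (SmAt.const _ _).mul s3
    have hfun : (fun y => l a b y + l b c y - l a c y) =
        fun y => (l a b y + l b c y) + (-1 : ℂ) * l a c y := by
      funext y; ring
    rw [hfun]
    refine ⟨(s1.add s2).add s3', fun q => ?_⟩
    rw [DT_add _ (s1.add s2).dat s3'.dat, DT_add _ s1.dat s2.dat, DT_const_mul _ _ s3.dat, ← e1, ← e2,
      ← e3, vv_sub, vv_sub, vv_sub]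
    ring
  choose r hr using hr
  exact ⟨{ om := om, l := l, r := r
           sm_om := fun a x hx => (hom a x hx).1
           sml := fun a b x ha hb => (hl a b x ⟨ha, hb⟩).1
           d_om := fun a x hx => (hom a x hx).2
           dl := fun a b x ha hb q => by
             rw [← (hl a b x ⟨ha, hb⟩).2 q, vv_sub]
             ring
           coc := fun a b c x ha hb hc => hr a b c x ⟨⟨ha, hb⟩, hc⟩ }⟩

end manifold

end Vale.Agent.P267.H283
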