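import Vale.Agent.P267.H283.Poin
import Vale.Agent.P267.H368.Cover

/-!
# P267, UNI-POIN: zigzags over helper368's good covers
-/

set_option linter.unusedSectionVars false

open scoped Manifold ContDiff
open Set Filter Topology

noncomputable section

namespace Vale.Agent.P267.H283

open Vale.Agent.P267.FL Vale.Agent.P267.H995 Vale.Agent.P267.H368

variable {X : Type*} [TopologicalSpace X] [ChartedSpace C2 X]

theorem CC.isPreconnected {W : Set X} (h : CC W) : IsPreconnected W := by
  obtain ⟨e, -, hWe, hc⟩ := h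
  have h1 : W = e.symm '' (e '' W) := by
    rw [image_image]
    have h2 : (fun x => e.symm (e x)) '' W = (fun x => x) '' W :=
      image_congr fun x hx => e.left_inv (hWe hx)
    rw [h2, image_id']
  rw [h1]
  refine hc.isPreconnected.image _ (e.symm.continuousOn.mono ?_)
  rintro _ ⟨x, hx, rfl⟩
  exact e.map_source (hWe hx)

variable {F : Type*} [NormedAddCommGroup F] [InnerProductSpace ℝ F] {A : C2 ≃L[ℝ] F}
  (G : GoodCover X A)

theorem cc_inter (s : Finset (Fin G.n)) (hs : s.Nonempty) : CC (⋂ j ∈ s, G.U j) := by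
  obtain ⟨i, hi⟩ := hs
  rcases (⋂ j ∈ s, G.U j).eq_empty_or_nonempty with h | h
  · refine ⟨G.e i, G.e_mem i, ?_, ?_⟩
    · rw [h]
      exact empty_subset _
    · rw [h, image_empty]
      exact convex_empty
  · obtain ⟨h1, h2, -⟩ := G.inter_convex hi h
    exact ⟨G.e i, G.e_mem i, fun x hx => h1 i hi (mem_iInter₂.1 hx i hi), h2⟩

theorem cc_one (a : Fin G.n) : CC (G.U a) := by
  have := cc_inter G {a} (by simp)
  simpa using this

theorem cc_two (a b : Fin G.n) : CC (G.U a ∩ G.U b) := by
  have := cc_inter G {a, b} (by simp)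
  simpa using this

theorem cc_three (a b c : Fin G.n) : CC (G.U a ∩ G.U b ∩ G.U c) := by
  have := cc_inter G {a, b, c} (by simp)
  simpa [inter_assoc] using this

/-- zigzag of a smooth closed two-form over a good cover -/
theorem exists_zig_good [IsManifold 𝓘(ℂ, C2) ω X] {Fo : TwoF X} (hF : Fo.Smooth) (hcl : Fo.Closed) :
    Nonempty (Zig G.U Fo) :=
  exists_zig hF hcl G.isOpen_U (cc_one G) (cc_two G) fun a b c => (cc_three G a b c).isPreconnected

end Vale.Agent.P267.H283
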