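import Vale.Agent.P267.H283.Elk
import Vale.Agent.P267.H379.Orbits

/-!
# P267, block C: compactly supported closed real two-forms on the infinite cyclic cover
-/

set_option linter.unusedSectionVars false

open scoped Manifold ContDiff ComplexConjugate
open Set Matrix
open Vale.Agent.P267.FL Vale.Agent.P267.H158 Vale.Agent.P267.RR

noncomputable section

namespace Vale.Agent.P267.BlockC

variable {X : Type} [TopologicalSpace X] [ChartedSpace C2 X] {h : C(X, UnitAddCircle)}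

/-- translate of a two-form: `(shF k F)(x) = F(γ^{-k} x)` -/
def shF (k : ℤ) (F : TwoF (Cov h)) : TwoF (Cov h) :=
  ⟨fun x => F.f20 (Cov.shift (-k) x), fun x => F.f11 (Cov.shift (-k) x),
    fun x => F.f02 (Cov.shift (-k) x)⟩

/-- the form vanishes for `|f| ≥ R`, for some `R` -/
def CS (F : TwoF (Cov h)) : Prop :=
  ∃ R : ℝ, ∀ x : Cov h, R ≤ |Cov.f x| → F.f20 x = 0 ∧ F.f11 x = 0 ∧ F.f02 x = 0

theorem shF_add' (k : ℤ) (F G : TwoF (Cov h)) : shF k (F + G) = shF k F + shF k G := rfl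

theorem shF_smul (k : ℤ) (c : ℂ) (F : TwoF (Cov h)) : shF k (c • F) = c • shF k F := rfl

theorem shF_shF (j k : ℤ) (F : TwoF (Cov h)) : shF j (shF k F) = shF (j + k) F := by
  have h1 : ∀ x : Cov h, Cov.shift (-k) (Cov.shift (-j) x) = Cov.shift (-(j + k)) x := by
    intro x
    have h2 : -k + -j = -(j + k) := by ring
    rw [← Cov.shift_add, h2]
  unfold shF
  simp only [h1]

theorem shF_zero (F : TwoF (Cov h)) : shF 0 F = F := by
  unfold shF
  simp

theorem CS.sh {F : TwoF (Cov h)} (hF : CS F) (k : ℤ) : CS (shF k F) := by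
  obtain ⟨R, hR⟩ := hF
  refine ⟨R + |(k : ℝ)|, fun x hx => hR _ ?_⟩
  rw [Cov.f_shift]
  push_cast
  have := abs_sub_abs_le_abs_sub (Cov.f x) (k : ℝ)
  rw [← sub_eq_add_neg]
  linarith

theorem CS.add {F G : TwoF (Cov h)} (hF : CS F) (hG : CS G) : CS (F + G) := by
  obtain ⟨R, hR⟩ := hF
  obtain ⟨S, hS⟩ := hG
  refine ⟨max R S, fun x hx => ?_⟩
  obtain ⟨h1, h2, h3⟩ := hR x ((le_max_left _ _).trans hx)
  obtain ⟨h4, h5, h6⟩ := hS x ((le_max_right _ _).trans hx)
  simp [h1, h2, h3, h4, h5, h6]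

theorem CS.smul {F : TwoF (Cov h)} (hF : CS F) (c : ℂ) : CS (c • F) := by
  obtain ⟨R, hR⟩ := hF
  refine ⟨R, fun x hx => ?_⟩
  obtain ⟨h1, h2, h3⟩ := hR x hx
  simp [h1, h2, h3]

theorem CS.zero : CS (0 : TwoF (Cov h)) := ⟨0, fun x _ => by simp⟩

/-- wedge products with far translates vanish -/
theorem CS.wedge_sh {F G : TwoF (Cov h)} (hF : CS F) (hG : CS G) :
    ∃ N : ℕ, ∀ k : ℤ, (N : ℤ) ≤ |k| → F.wedge (shF k G) = 0 := by
  obtain ⟨R, hR⟩ := hF
  obtain ⟨S, hS⟩ := hG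
  obtain ⟨N, hN⟩ := exists_nat_ge (R + S)
  refine ⟨N, fun k hk => ?_⟩
  funext x
  by_cases hx : R ≤ |Cov.f x|
  · obtain ⟨h1, h2, h3⟩ := hR x hx
    simp [TwoF.wedge, h1, h2, h3]
  · have h4 : S ≤ |Cov.f (Cov.shift (-k) x)| := by
      rw [Cov.f_shift]
      push_cast
      have h5 : (N : ℝ) ≤ |(k : ℝ)| := by exact_mod_cast hk
      have h6 := abs_sub_abs_le_abs_sub (k : ℝ) (Cov.f x)
      rw [abs_sub_comm] at h6
      rw [← sub_eq_add_neg]
      linarith
    obtain ⟨h1, h2, h3⟩ := hS _ h4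
    have e20 : (shF k G).f20 x = 0 := h1
    have e11 : (shF k G).f11 x = 0 := h2
    have e02 : (shF k G).f02 x = 0 := h3
    simp [TwoF.wedge, e20, e11, e02]

theorem hasInt_zero {M : Type*} [TopologicalSpace M] [ChartedSpace C2 M] :
    HasInt (0 : M → ℂ) 0 := by
  intro N e ρ _ _ _ _ _
  refine Finset.sum_eq_zero fun i _ => ?_
  simp [loc2]

theorem intX_zero {M : Type*} [TopologicalSpace M] [ChartedSpace C2 M] :
    intX (0 : M → ℂ) = 0 := by
  have hex : ∃ I, HasInt (0 : M → ℂ) I := ⟨0, hasInt_zero⟩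
  rw [intX, dif_pos hex]
  have h1 := hex.choose_spec 0 Fin.elim0 Fin.elim0 (fun i => i.elim0) (fun i => i.elim0)
    (fun i => i.elim0) (fun i => i.elim0) (by
      intro x hx
      have h2 : tsupport (0 : M → ℂ) = ∅ := by
        rw [tsupport, Function.support_zero, closure_empty]
      rw [h2] at hx
      exact absurd hx (by simp))
  rw [← h1]
  simp

theorem CS.pair_sh {F G : TwoF (Cov h)} (hF : CS F) (hG : CS G) :
    ∃ N : ℕ, ∀ k : ℤ, (N : ℤ) ≤ |k| → pair F (shF k G) = 0 := by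
  obtain ⟨N, hN⟩ := hF.wedge_sh hG
  exact ⟨N, fun k hk => by rw [pair, hN k hk, intX_zero]⟩

theorem real_zero {M : Type*} : (0 : OneF M).Real := fun x i => by simp

theorem TwoF.real_add {M : Type*} [TopologicalSpace M] [ChartedSpace C2 M] {F G : TwoF M}
    (hF : F.Real) (hG : G.Real) : (F + G).Real := by
  intro x
  obtain ⟨h1, h2⟩ := hF x
  obtain ⟨h3, h4⟩ := hG x
  refine ⟨by simp [h1, h3], fun i j => ?_⟩
  rw [TwoF.f11_add, Pi.add_apply, Matrix.add_apply, Matrix.add_apply, h2, h4, map_add]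
  ring

theorem TwoF.real_smul {M : Type*} [TopologicalSpace M] [ChartedSpace C2 M] {F : TwoF M}
    (hF : F.Real) (c : ℝ) : ((c : ℂ) • F).Real := by
  intro x
  obtain ⟨h1, h2⟩ := hF x
  refine ⟨?_, fun i j => ?_⟩
  · rw [TwoF.f20_smul, TwoF.f02_smul, Pi.smul_apply, Pi.smul_apply, h1, smul_eq_mul, smul_eq_mul,
      map_mul, Complex.conj_ofReal]
  · rw [TwoF.f11_smul, Pi.smul_apply, Matrix.smul_apply, Matrix.smul_apply, h2, smul_eq_mul,
      smul_eq_mul, map_mul, Complex.conj_ofReal, mul_neg]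

theorem real_sh {F : TwoF (Cov h)} (hF : F.Real) (k : ℤ) : (shF k F).Real :=
  fun x => hF (Cov.shift (-k) x)

theorem smulR_eq {M : Type*} (c : ℝ) (F : TwoF M) : c • F = (c : ℂ) • F := rfl

/-- The facts about the covers used for the final output of block C (all of them are instances of
the calculus of forms, of Stokes' theorem and of the descent to the finite covers). -/
structure CovFacts (h : C(X, UnitAddCircle)) : Prop where
  smooth_zero : (0 : TwoF (Cov h)).Smooth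
  closed_zero : (0 : TwoF (Cov h)).Closed
  smooth_add : ∀ F G : TwoF (Cov h), F.Smooth → G.Smooth → (F + G).Smooth
  smooth_smul : ∀ (c : ℂ) (F : TwoF (Cov h)), F.Smooth → (c • F).Smooth
  closed_add : ∀ F G : TwoF (Cov h), F.Smooth → G.Smooth → F.Closed → G.Closed → (F + G).Closed
  closed_smul : ∀ (c : ℂ) (F : TwoF (Cov h)), F.Smooth → F.Closed → (c • F).Closed
  smooth_sh : ∀ (k : ℤ) (F : TwoF (Cov h)), F.Smooth → (shF k F).Smooth
  closed_sh : ∀ (k : ℤ) (F : TwoF (Cov h)), F.Smooth → F.Closed → (shF k F).Closed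
  pair_add : ∀ F F' G : TwoF (Cov h), F.Smooth → F'.Smooth → G.Smooth → CS F → CS F' →
    pair (F + F') G = pair F G + pair F' G
  pair_add' : ∀ F G G' : TwoF (Cov h), F.Smooth → G.Smooth → G'.Smooth → CS F →
    pair F (G + G') = pair F G + pair F G'
  pair_smul : ∀ (c : ℂ) (F G : TwoF (Cov h)), F.Smooth → G.Smooth → CS F →
    pair (c • F) G = c * pair F G
  pair_smul' : ∀ (c : ℂ) (F G : TwoF (Cov h)), F.Smooth → G.Smooth → CS F →
    pair F (c • G) = c * pair F G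
  pair_sh : ∀ (k : ℤ) (F G : TwoF (Cov h)), F.Smooth → G.Smooth → CS F →
    pair (shF k F) (shF k G) = pair F G
  pair_real : ∀ F G : TwoF (Cov h), F.Smooth → G.Smooth → F.Real → G.Real → CS F →
    (pair F G).im = 0
  /-- Stokes -/
  pair_d : ∀ (A : OneF (Cov h)) (F : TwoF (Cov h)), A.Smooth → F.Smooth → F.Closed → CS F →
    pair F A.d = 0
  smooth_d : ∀ A : OneF (Cov h), A.Smooth → A.d.Smooth
  curv_smooth : ∀ L : ALB (Cov h), L.L.curv.Smooth
  curv_closed : ∀ L : ALB (Cov h), L.L.curv.Closed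
  curv_real : ∀ L : ALB (Cov h), (Complex.I • L.L.curv).Real
  canon : ∀ K K' : ALB (Cov h), IsCanon K.L → IsCanon K'.L → ExactTwo (K.L.curv - K'.L.curv)
  smooth_pull : ∀ (m : ℕ) [NeZero m] (F : TwoF (CovM h m)), F.Smooth → (pullM m F).Smooth
  canon_pull : ∀ (m : ℕ) [NeZero m] (K : ALB (CovM h m)), IsCanon K.L →
    ∃ K' : ALB (Cov h), IsCanon K'.L ∧ K'.L.curv = pullM m K.L.curv
  /-- the periodic sum of a compactly supported form, as a form on the finite cover -/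
  wrap : ∀ (m : ℕ) [NeZero m] (F : TwoF (Cov h)), F.Smooth → F.Closed → CS F →
    ∃ W : TwoF (CovM h m), W.Smooth ∧ W.Closed ∧ (F.Real → W.Real) ∧
      (∀ G : TwoF (CovM h m), G.Smooth → pair W G = pair F (pullM m G)) ∧
      ∀ G : TwoF (Cov h), G.Smooth → CS G →
        pair G (pullM m W) = ∑ᶠ k : ℤ, pair G (shF (m * k) F)
  /-- translates of line bundles -/
  exists_shift : ∀ (k : ℤ) (L : ALB (Cov h)), ∃ L' : LB (Cov h) L.ι, IsShift h k L.L L'
  curv_shift : ∀ (k : ℤ) (L : ALB (Cov h)) (L' : LB (Cov h) L.ι), IsShift h k L.L L' →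
    L'.curv = shF k L.L.curv
  curv_CS : ∀ (L : ALB (Cov h)) (i₀ : L.ι) (R : ℝ), EndTriv h L i₀ R → CS L.L.curv
  /-- periodic extension of line bundles -/
  per : ∀ (m : ℕ) [NeZero m] (L : ALB (Cov h)) (i₀ : L.ι) (R : ℝ), EndTriv h L i₀ R →
    2 * R ≤ m → ∃ L' : LB (CovM h m) L.ι, IsPer h m L.L L' ∧
      (∀ G : TwoF (CovM h m), G.Smooth → pair L'.curv G = pair L.L.curv (pullM m G)) ∧
      ∀ G : TwoF (Cov h), G.Smooth → CS G →
        pair G (pullM m L'.curv) = ∑ᶠ k : ℤ, pair G (shF (m * k) L.L.curv)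

end Vale.Agent.P267.BlockC
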